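import Vale.Agent.P098.Reduce.Edge
import Vale.Agent.P098.Smoothing

/-!
P098, reduction of the certificate in dimension five: from scalar inequalities for a family of
coefficients in `(Q, s, P)` to flatness of minimizing cones with smooth cross-section.
-/

open Filter Matrix
open scoped Topology ContDiff RealInnerProductSpace

namespace Vale.Agent.P098.Reduce

noncomputable section

variable {u v : Euc 5 → ℝ} {W : Set (Euc 5)} (hu : IsSmoothCone u) (hW : IsOpen W)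
  (hsub : closure (posSet u) \ {0} ⊆ W) (hv : ContDiffOn ℝ ∞ v W)
  (hvu : Set.EqOn v u (posSet u))

lemma contDiffAt_hess_pow {x : Euc 5} (h : ContDiffAt ℝ 4 v x) : ∀ (j : ℕ) (a b : Fin 5),
    ContDiffAt ℝ 2 (fun y => (hessM v y ^ j) a b) x
  | 0, a, b => by simp only [pow_zero]; exact contDiffAt_const
  | j + 1, a, b => by
    simp only [pow_succ, Matrix.mul_apply]
    exact ContDiffAt.sum fun l _ => (contDiffAt_hess_pow h j a l).mul
      (contDiffAt_pd (contDiffAt_pd h (m := 3) (by norm_num) l) (by norm_num) b)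

lemma contDiffAt_invNorm {x : Euc 5} (hx : x ≠ 0) {n : WithTop ℕ∞} :
    ContDiffAt ℝ n (fun y : Euc 5 => ‖y‖⁻¹) x :=
  (contDiffAt_norm ℝ hx).inv (norm_ne_zero_iff.2 hx)

lemma contDiffAt_coefArg {x : Euc 5} (hx : x ≠ 0) (h : ContDiffAt ℝ 4 v x) :
    ContDiffAt ℝ 2 (coefArg v) x := by
  refine ContDiffAt.prodMk ?_ (ContDiffAt.prodMk ?_ ?_)
  · refine ((contDiff_norm_sq ℝ).contDiffAt).mul (ContDiffAt.sum fun i _ => ?_)
    have := contDiffAt_hess_pow h 2 i i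
    simpa [pow_two] using this
  · simpa [div_eq_mul_inv] using (h.of_le (by norm_num)).mul (contDiffAt_invNorm hx (n := 2))
  · exact ContDiffAt.sum fun i _ => ((contDiffAt_pd h (by norm_num) i).mul
      (contDiffAt_pd h (by norm_num) i))

lemma contDiffAt_certF {Φ : ℝ × ℝ × ℝ → ℝ} (hΦ : ContDiff ℝ 2 Φ) {x : Euc 5} (hx : x ≠ 0)
    (h : ContDiffAt ℝ 4 v x) : ContDiffAt ℝ 2 (certF Φ v) x :=
  ((contDiffAt_invNorm hx).pow 3).mul (hΦ.contDiffAt.comp x (contDiffAt_coefArg hx h))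

lemma contDiffAt_certV {A : Fin 2 → ℝ × ℝ × ℝ → ℝ} {B : Fin 5 → ℝ × ℝ × ℝ → ℝ}
    (hA : ∀ m, ContDiff ℝ 1 (A m)) (hB : ∀ j, ContDiff ℝ 1 (B j)) {x : Euc 5} (hx : x ≠ 0)
    (h : ContDiffAt ℝ 4 v x) (k : Fin 5) : ContDiffAt ℝ 1 (certV A B v k) x := by
  have hz : ContDiffAt ℝ 1 (coefArg v) x := (contDiffAt_coefArg hx h).of_le (by norm_num)
  have h3 : ∀ i j, ContDiffAt ℝ 1 (fun y => thirdM v y k i j) x := fun i j =>
    contDiffAt_pd (contDiffAt_pd (contDiffAt_pd h (m := 3) (by norm_num) i) (m := 2) (by norm_num) j)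
      (by norm_num) k
  refine (ContDiffAt.sum fun m _ => ?_).add (ContDiffAt.sum fun j _ => ?_)
  · refine (((contDiffAt_invNorm hx).pow _).mul ((hA m).contDiffAt.comp x hz)).mul ?_
    simp only [Reduce.contract, Matrix.trace, Matrix.diag, Matrix.mul_apply]
    exact ContDiffAt.sum fun i _ => ContDiffAt.sum fun l _ =>
      (h3 i l).mul ((contDiffAt_hess_pow h _ l i).of_le (by norm_num))
  · refine (((contDiffAt_invNorm hx).pow _).mul ((hB j).contDiffAt.comp x hz)).mul ?_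
    simp only [Matrix.mulVec, dotProduct]
    exact ContDiffAt.sum fun i _ => ((contDiffAt_hess_pow h _ k i).of_le (by norm_num)).mul
      (contDiffAt_pd h (by norm_num) i)

include hu hW hsub hv hvu in
lemma jet_smul {x : Euc 5} (hx : x ∈ posSet u) {r : ℝ} (hr : 0 < r) :
    gradVec v (r • x) = gradVec v x ∧ hessM v (r • x) = r⁻¹ • hessM v x ∧
      (∀ k, thirdM v (r • x) k = (r ^ 2)⁻¹ • thirdM v x k) ∧ coefArg v (r • x) = coefArg v x := by
  have hg : gradVec v (r • x) = gradVec v x := by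
    funext i
    rw [gradVec, gradVec, pd, pd, fderiv_smul_eq hu hsub hv hvu hx hr]
  have hH : hessM v (r • x) = r⁻¹ • hessM v x := by
    ext i j; exact hessian_smul hu hW hsub hv hvu hx hr i j
  have hT : ∀ k, thirdM v (r • x) k = (r ^ 2)⁻¹ • thirdM v x k := fun k => by
    ext i j
    have hd : ∀ y ∈ posSet u, DifferentiableAt ℝ (pd j (pd i v)) y := fun y hy =>
      diff_hess ((hv.contDiffAt (hW.mem_nhds (posSet_subset hu hsub hy))).of_le
        (WithTop.coe_le_coe.2 le_top)) i j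
    have h := pd_scale (h := pd j (pd i v)) (h' := pd j (pd i v)) (c := r⁻¹) (r := r) (by
      filter_upwards [(isOpen_posSet hu).mem_nhds hx] with y hy
      exact hessian_smul hu hW hsub hv hvu hy hr i j)
      (hd _ (smul_mem_posSet hu hx hr)) (hd x hx) k
    show third v i j k (r • x) = (r ^ 2)⁻¹ * third v i j k x
    unfold third
    field_simp at h ⊢
    linarith
  refine ⟨hg, hH, hT, ?_⟩
  simp only [coefArg, hg, hH, norm_smul, Real.norm_eq_abs, abs_of_pos hr, smul_mul_assoc,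
    mul_smul_comm, smul_smul, Matrix.trace_smul, smul_eq_mul]
  rw [hvu (smul_mem_posSet hu hx hr), hu.homogeneous r hr x, hvu hx]
  refine Prod.ext ?_ (Prod.ext ?_ rfl)
  · field_simp
  · exact mul_div_mul_left _ _ hr.ne'

include hu hW hsub hv hvu in
lemma homOn_cert (Φ : ℝ × ℝ × ℝ → ℝ) (A : Fin 2 → ℝ × ℝ × ℝ → ℝ) (B : Fin 5 → ℝ × ℝ × ℝ → ℝ) :
    HomOn u (2 - ((5 : ℕ) : ℝ)) (certF Φ v) ∧
      ∀ k, HomOn u (1 - ((5 : ℕ) : ℝ)) (certV A B v k) := by
  refine ⟨fun x hx r hr => ?_, fun k x hx r hr => ?_⟩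
  · obtain ⟨-, -, -, hz⟩ := jet_smul hu hW hsub hv hvu hx hr
    rw [certF, certF, hz, norm_smul, Real.norm_eq_abs, abs_of_pos hr,
      show (2 : ℝ) - ((5 : ℕ) : ℝ) = -((3 : ℕ) : ℝ) by norm_num, Real.rpow_neg hr.le,
      Real.rpow_natCast, mul_inv, mul_pow, inv_pow, inv_pow]
    ring
  · obtain ⟨hg, hH, hT, hz⟩ := jet_smul hu hW hsub hv hvu hx hr
    have hc : ∀ m : ℕ, Reduce.contract (hessM v (r • x)) (thirdM v (r • x)) m k =
        (r⁻¹) ^ (m + 2) * Reduce.contract (hessM v x) (thirdM v x) m k := fun m => by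
      simp only [Reduce.contract, hH, hT, smul_pow, smul_mul_assoc, mul_smul_comm, smul_smul,
        Matrix.trace_smul, smul_eq_mul]
      rw [inv_pow, inv_pow, pow_add]
      ring
    have hb : ∀ j : ℕ, (hessM v (r • x) ^ j *ᵥ gradVec v (r • x)) k =
        r⁻¹ ^ j * (hessM v x ^ j *ᵥ gradVec v x) k := fun j => by
      rw [hg, hH, smul_pow, Matrix.smul_mulVec, Pi.smul_apply, smul_eq_mul]
    rw [show (1 : ℝ) - ((5 : ℕ) : ℝ) = -((4 : ℕ) : ℝ) by norm_num, Real.rpow_neg hr.le, Real.rpow_natCast]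
    simp only [certV, hz, hc, hb, norm_smul, Real.norm_eq_abs, abs_of_pos hr, mul_inv, mul_pow,
      Fin.sum_univ_two, Fin.sum_univ_five, inv_pow]
    norm_num
    field_simp

lemma dot_self_nonneg' (g : Fin 5 → ℝ) : 0 ≤ g ⬝ᵥ g :=
  Finset.sum_nonneg fun i _ => mul_self_nonneg (g i)

/-- Stable cones in dimension five are flat, given families of coefficients satisfying the
scalar inequalities with bounds tending to a strictly negative one. -/
theorem flat_of_ineq {u : Euc 5 → ℝ} (hu : IsSmoothCone u) (hmin : IsStable u)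
    {Φ : ℝ → ℝ × ℝ × ℝ → ℝ} {A : ℝ → Fin 2 → ℝ × ℝ × ℝ → ℝ} {B : ℝ → Fin 5 → ℝ × ℝ × ℝ → ℝ}
    {β : ℝ → ℝ × ℝ × ℝ → ℝ} {δ : ℝ → ℝ} {β₀ : ℝ × ℝ × ℝ → ℝ}
    (hδ : Tendsto δ (𝓝[>] 0) (𝓝 0))
    (hC : ∀ᶠ ε : ℝ in 𝓝[>] 0, ContDiff ℝ 2 (Φ ε) ∧ (∀ m, ContDiff ℝ 1 (A ε m)) ∧
      (∀ j, ContDiff ℝ 1 (B ε j)) ∧ (∀ z : ℝ × ℝ × ℝ, 0 ≤ z.1 → z.2.1 ∈ Set.Icc (0 : ℝ) 1 →
        z.2.2 ∈ Set.Icc (0 : ℝ) 1 → 0 ≤ Φ ε z) ∧
      InteriorIneq (Φ ε) (A ε) (B ε) (β ε) ∧ BoundaryIneq (Φ ε) (A ε) (B ε) (δ ε))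
    (hbound : ∀ R : ℝ, ∃ C : ℝ, ∀ᶠ ε : ℝ in 𝓝[>] 0, ∀ z : ℝ × ℝ × ℝ, z.1 ∈ Set.Icc 0 R →
      z.2.1 ∈ Set.Icc (0 : ℝ) 1 → z.2.2 ∈ Set.Icc (0 : ℝ) 1 → β ε z ≤ C)
    (hβ₀ : Continuous β₀) (hβ0 : ∀ z : ℝ × ℝ × ℝ, 0 ≤ z.1 → β₀ z ≤ 0)
    (hdet : ∀ z : ℝ × ℝ × ℝ, 0 ≤ z.1 → z.2.1 ∈ Set.Icc (0 : ℝ) 1 → z.2.2 ∈ Set.Icc (0 : ℝ) 1 →
      β₀ z = 0 → z.1 = 0)
    (hlim : ∀ z : ℝ × ℝ × ℝ, 0 ≤ z.1 → z.2.1 ∈ Set.Icc (0 : ℝ) 1 → z.2.2 ∈ Set.Icc (0 : ℝ) 1 →
      ∀ c > 0, ∀ᶠ ε : ℝ in 𝓝[>] 0, β ε z ≤ β₀ z + c) :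
    (∀ x, u x = 0) ∨ ∃ e : Euc 5, ‖e‖ = 1 ∧ ∀ x, u x = max ⟪e, x⟫ 0 := by
  obtain ⟨W, v, hW, hsub, hv, hvu, hbd⟩ := hu.smooth
  set W' := W \ ({0} : Set (Euc 5)) with hW'
  have hWo : IsOpen W' := hW.sdiff isClosed_singleton
  have hsub' : closure (posSet u) \ {0} ⊆ W' := fun x hx => ⟨hsub hx, hx.2⟩
  have hv' : ContDiffOn ℝ ∞ v W' := hv.mono Set.sdiff_subset
  have h4 : ∀ x ∈ W', ContDiffAt ℝ 4 v x := fun x hx =>
    (hv'.contDiffAt (hWo.mem_nhds hx)).of_le (WithTop.coe_le_coe.2 le_top)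
  have hdom : ∀ x ∈ posSet u, 0 ≤ (coefArg v x).1 ∧ (coefArg v x).2.1 ∈ Set.Icc (0 : ℝ) 1 ∧
      (coefArg v x).2.2 ∈ Set.Icc (0 : ℝ) 1 := by
    intro x hx
    have hx0 := ne_zero_of_mem_posSet hu hx
    obtain ⟨hs, -, -, -, -, -, -⟩ := jet_props hu hWo hsub' hv' hvu (subset_closure hx) hx0
    have hn : 0 < ‖x‖ := norm_pos_iff.2 hx0
    refine ⟨mul_nonneg (sq_nonneg _) ?_, ⟨?_, ?_⟩,
      ⟨dot_self_nonneg' (gradVec v x),
        gradSq_le_one hu hWo hsub' hv' hvu hbd (by norm_num) hx⟩⟩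
    · have : 0 ≤ (hessM v x * hessM v x).trace := by
        refine Finset.sum_nonneg fun i _ => ?_
        rw [Matrix.diag_apply, Matrix.mul_apply]
        exact Finset.sum_nonneg fun l _ => by
          rw [show hessM v x l i = hessM v x i l from congrFun (congrFun hs i) l]
          exact mul_self_nonneg _
      exact this
    · show 0 ≤ v x / ‖x‖
      rw [hvu hx]; exact div_nonneg (hu.nonneg x) hn.le
    · show v x / ‖x‖ ≤ 1
      rw [div_le_one hn, hvu hx, ← fderiv_self hu hsub' hv' hvu hx]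
      have hg := gradSq_le_one hu hWo hsub' hv' hvu hbd (by norm_num : 2 ≤ 5) hx
      have hnorm : ‖fderiv ℝ v x‖ ≤ 1 := by
        rw [← norm_fderiv_sq] at hg
        nlinarith [norm_nonneg (fderiv ℝ v x)]
      exact (le_abs_self _).trans ((Real.norm_eq_abs _ ▸ (fderiv ℝ v x).le_opNorm x).trans
        (mul_le_of_le_one_left hn.le hnorm))
  have hQc : ContinuousOn (coefArg v) W' := fun x hx =>
    (contDiffAt_coefArg hx.2 (h4 x hx)).continuousAt.continuousWithinAt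
  obtain ⟨R, hR⟩ : ∃ R, ∀ x ∈ posSet u, 1 ≤ ‖x‖ → ‖x‖ < 2 → (coefArg v x).1 ≤ R := by
    set K := closure (posSet u) ∩ (Metric.closedBall (0 : Euc 5) 2 \ Metric.ball 0 1)
    have hK : IsCompact K :=
      ((isCompact_closedBall _ _).diff Metric.isOpen_ball).inter_left isClosed_closure
    have hKW : K ⊆ W' := fun y hy => hsub' ⟨hy.1, fun h => hy.2.2 (by simp [Set.mem_singleton_iff.1 h])⟩
    obtain ⟨C, hC⟩ := hK.exists_bound_of_continuousOn ((continuous_fst.comp_continuousOn hQc).mono hKW)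
    exact ⟨C, fun x hx h1 h2 => ((le_abs_self _).trans_eq (Real.norm_eq_abs _).symm).trans
      (hC x ⟨subset_closure hx, by simp [h2.le], by simp [h1]⟩)⟩
  obtain ⟨C, hCb⟩ := hbound R
  refine flat_of_certificate_family (F := fun ε => certF (Φ ε) v)
    (V := fun ε => certV (A ε) (B ε) v) (q := fun x => β₀ (coefArg v x) / ‖x‖ ^ 5)
    hu hWo hsub' hv' hvu (by norm_num) hmin hbd hδ ?_ ?_ ?_ ⟨max C 0, ?_⟩ ?_ ?_ ?_ ?_
  · filter_upwards [hC] with ε hε
    refine ⟨fun x hx => (contDiffAt_certF hε.1 hx.2 (h4 x hx)).contDiffWithinAt, fun x hx => ?_,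
      (homOn_cert hu hWo hsub' hv' hvu (Φ ε) (A ε) (B ε)).1⟩
    exact mul_nonneg (by positivity) (hε.2.2.2.1 _ (hdom x hx).1 (hdom x hx).2.1 (hdom x hx).2.2)
  · filter_upwards [hC] with ε hε k
    exact ⟨fun x hx => (contDiffAt_certV hε.2.1 hε.2.2.1 hx.2 (h4 x hx) k).contDiffWithinAt,
      (homOn_cert hu hWo hsub' hv' hvu (Φ ε) (A ε) (B ε)).2 k⟩
  · filter_upwards [hC] with ε hε x hx hx0
    refine (flux_le hu hWo hsub' hv' hvu hbd hε.2.2.2.2.2 hx hx0).trans_eq ?_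
    rw [show (1 : ℝ) - ((5 : ℕ) : ℝ) = -((4 : ℕ) : ℝ) by norm_num, Real.rpow_neg (norm_nonneg _),
      Real.rpow_natCast, div_eq_mul_inv]
  · filter_upwards [hC, hCb] with ε hε hb x hx h1 h2 y
    refine (cert_le hu hWo hsub' hv' hvu hbd (hε.1.differentiable (by norm_num))
      (fun m => (hε.2.1 m).differentiable (by norm_num))
      (fun j => (hε.2.2.1 j).differentiable (by norm_num)) hε.2.2.2.2.1 hx y).trans ?_
    have h5 : 1 ≤ ‖x‖ ^ 5 := one_le_pow₀ h1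
    have hβ := (hb _ ⟨(hdom x hx).1, hR x hx h1 h2⟩ (hdom x hx).2.1 (hdom x hx).2.2).trans
      (le_max_left C 0)
    rw [div_le_iff₀ (by linarith)]
    exact hβ.trans (le_mul_of_one_le_right (le_max_right _ _) h5)
  · refine ContinuousOn.div (hβ₀.comp_continuousOn hQc) (continuous_norm.pow 5).continuousOn
      fun x hx => pow_ne_zero 5 (norm_ne_zero_iff.2 hx.2)
  · exact fun x hx => div_nonpos_of_nonpos_of_nonneg (hβ0 _ (hdom x hx).1) (by positivity)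
  · intro x hx h1 h2 c hc
    filter_upwards [hC, hlim _ (hdom x hx).1 (hdom x hx).2.1 (hdom x hx).2.2 c hc] with ε hε hl y
    refine (cert_le hu hWo hsub' hv' hvu hbd (hε.1.differentiable (by norm_num))
      (fun m => (hε.2.1 m).differentiable (by norm_num))
      (fun j => (hε.2.2.1 j).differentiable (by norm_num)) hε.2.2.2.2.1 hx y).trans ?_
    have h5 : 1 ≤ ‖x‖ ^ 5 := one_le_pow₀ h1
    rw [div_add' _ _ _ (by positivity), div_le_div_iff_of_pos_right (by positivity)]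
    exact hl.trans (by linarith [le_mul_of_one_le_right hc.le h5])
  · intro x hx hq i j
    have hn : 0 < ‖x‖ := norm_pos_iff.2 (ne_zero_of_mem_posSet hu hx)
    have h0 := hdet _ (hdom x hx).1 (hdom x hx).2.1 (hdom x hx).2.2
      ((div_eq_zero_iff.1 hq).resolve_right (by positivity))
    obtain ⟨hs, -⟩ := jet_props hu hWo hsub' hv' hvu (subset_closure hx) (ne_zero_of_mem_posSet hu hx)
    have hz : (hessM v x * hessM v x).trace = 0 :=
      (mul_eq_zero.1 h0).resolve_left (by positivity)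
    have e : (hessM v x * hessM v x).trace = ∑ a, ∑ b, hessM v x a b * hessM v x a b :=
      Finset.sum_congr rfl fun a _ => (Matrix.mul_apply).trans (Finset.sum_congr rfl fun b _ => by
        rw [show hessM v x b a = hessM v x a b from congrFun (congrFun hs a) b])
    rw [e] at hz
    have h1 := (Finset.sum_eq_zero_iff_of_nonneg fun a _ =>
      Finset.sum_nonneg fun b _ => mul_self_nonneg (hessM v x a b)).1 hz i (Finset.mem_univ i)
    exact mul_self_eq_zero.1 ((Finset.sum_eq_zero_iff_of_nonneg fun b _ =>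
      mul_self_nonneg (hessM v x i b)).1 h1 j (Finset.mem_univ j))

end

end Vale.Agent.P098.Reduce
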