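import Vale.Agent.P098.Reduce.Expr

/-!
P098, reduction of the certificate: in an eigenframe the pointwise expression splits into one
quadratic form per eigendirection, and the worst case has the tangential gradient in one of them.
-/

open Matrix

namespace Vale.Agent.P098.Reduce

noncomputable section

/-- `∑ a^p b^q` over `p + q = j - 1`. -/
def hsum : ℕ → ℝ → ℝ → ℝ
  | 0, _, _ => 0
  | j + 1, a, b => hsum j a b * b + a ^ j

/-- Power sums. -/
def psum (L : Fin 4 → ℝ) (j : ℕ) : ℝ := ∑ i, L i ^ j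

/-- A diagonal of third derivatives against powers of the eigenvalues. -/
def usum (L u : Fin 4 → ℝ) (m : ℕ) : ℝ := ∑ i, L i ^ m * u i

/-- The weights of the squares of the third derivatives in one block. -/
def weightSum (L u : Fin 4 → ℝ) (m : ℕ) (c : Fin 4) : ℝ :=
  ∑ i, (if i = c then hsum m (L c) (L c) else hsum m (L i) (L i) + 2 * hsum m (L i) (L c)) * u i ^ 2

/-- The differential of a coefficient in one eigendirection. -/
def dCoef (X : Coef) (L u : Fin 4 → ℝ) (c : Fin 4) (q : ℝ) : ℝ :=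
  2 * X.2.1 * usum L u 1 + (X.2.2.1 + 2 * L c * X.2.2.2) * q

/-- The quadratic form of one eigendirection. -/
def block (Φ : Coef) (A : Fin 2 → Coef) (B : Fin 5 → Coef) (L : Fin 4 → ℝ) (c : Fin 4)
    (u : Fin 4 → ℝ) (y q : ℝ) : ℝ :=
  y * dCoef Φ L u c q - y ^ 2 * Φ.1 +
    (∑ m : Fin 2, (dCoef (A m) L u c q * usum L u (m + 1) + (A m).1 * weightSum L u (m + 1) c)) +
    q * ∑ j : Fin 5, (L c ^ (j : ℕ) * dCoef (B j) L u c q +
      (B j).1 * ∑ i, hsum j (L i) (L c) * u i)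

/-- The part without third derivatives, the radial direction optimised. -/
def constPart (Φ : Coef) (A : Fin 2 → Coef) (B : Fin 5 → Coef) (L : Fin 4 → ℝ) (s : ℝ) : ℝ :=
  9 / 4 * Φ.1 + (∑ m : Fin 2, 4 * (A m).1 * psum L (m + 2)) - 4 * s * (B 0).1 +
    ∑ j : Fin 4, (B j.succ).1 * (psum L (j + 2) - s * psum L (j + 1))

lemma block_smul (Φ : Coef) (A : Fin 2 → Coef) (B : Fin 5 → Coef) (L : Fin 4 → ℝ) (c : Fin 4)
    (u : Fin 4 → ℝ) (y q r : ℝ) :
    block Φ A B L c (r • u) (r * y) (r * q) = r ^ 2 * block Φ A B L c u y q := by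
  have hu : ∀ m, usum L (r • u) m = r * usum L u m := fun m => by
    simp only [usum, Pi.smul_apply, smul_eq_mul, Finset.mul_sum]
    exact Finset.sum_congr rfl fun i _ => by ring
  have hw : ∀ m, weightSum L (r • u) m c = r ^ 2 * weightSum L u m c := fun m => by
    simp only [weightSum, Pi.smul_apply, smul_eq_mul, Finset.mul_sum]
    exact Finset.sum_congr rfl fun i _ => by ring
  have hh : ∀ j : ℕ, ∑ i, hsum j (L i) (L c) * (r • u) i = r * ∑ i, hsum j (L i) (L c) * u i := by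
    intro j
    simp only [Pi.smul_apply, smul_eq_mul, Finset.mul_sum]
    exact Finset.sum_congr rfl fun i _ => by ring
  have hd : ∀ X, dCoef X L (r • u) c (r * q) = r * dCoef X L u c q := fun X => by
    simp only [dCoef, hu]; ring
  simp only [block, hd, hu, hw, hh, Fin.sum_univ_two, Fin.sum_univ_five]
  ring

lemma block_neg (Φ : Coef) (A : Fin 2 → Coef) (B : Fin 5 → Coef) (L : Fin 4 → ℝ) (c : Fin 4)
    (u : Fin 4 → ℝ) (y q : ℝ) :
    block Φ A B L c (-u) (-y) (-q) = block Φ A B L c u y q := by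
  simpa using block_smul Φ A B L c u y q (-1)

/-- Linearity in the squared components: it suffices to put the gradient into one block. -/
theorem sum_block_le {Φ : Coef} {A : Fin 2 → Coef} {B : Fin 5 → Coef} {L : Fin 4 → ℝ} {K q₀ : ℝ}
    (h : ∀ c u y, ∑ i, u i = 0 → block Φ A B L c u y q₀ ≤ K)
    (q y : Fin 4 → ℝ) (u : Fin 4 → Fin 4 → ℝ) (hu : ∀ c, ∑ i, u c i = 0)
    (hq : ∑ c, q c ^ 2 = q₀ ^ 2) :
    ∑ c, block Φ A B L c (u c) (y c) (q c) ≤ K := by
  have hz : ∀ c v z, ∑ i, v i = 0 → block Φ A B L c v z 0 ≤ 0 := by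
    intro c v z hv
    by_contra hpos
    rw [not_le] at hpos
    -- along `(r v, r z, q₀)` the form is a quadratic polynomial in `r`, bounded by `K`
    set a := block Φ A B L c v z 0 with ha
    set e := block Φ A B L c 0 0 q₀ with he
    have hb : ∀ r : ℝ, r ^ 2 * (2 * a) + 2 * e ≤ 2 * K := by
      intro r
      have hu' : ∀ r : ℝ, ∑ i, (r • v) i = 0 := fun r => by simp [← Finset.mul_sum, hv]
      have h1 := h c (r • v) (r * z) (hu' r)
      have h2 := h c ((-r) • v) (-r * z) (hu' (-r))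
      have key : block Φ A B L c (r • v) (r * z) q₀ + block Φ A B L c ((-r) • v) (-r * z) q₀ =
          r ^ 2 * (2 * a) + 2 * e := by
        simp only [ha, he, block, dCoef, usum, weightSum, Fin.sum_univ_two, Fin.sum_univ_five,
          Fin.sum_univ_four, Pi.smul_apply, Pi.zero_apply, smul_eq_mul]
        ring
      linarith
    have h3 := hb (1 + |K - e| / a)
    have h5 : 0 ≤ |K - e| / a := by positivity
    have h4 : (|K - e| / a) * a = |K - e| := div_mul_cancel₀ _ hpos.ne'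
    nlinarith [le_abs_self (K - e), mul_nonneg (mul_nonneg h5 h5) hpos.le]
  by_cases hq0 : q₀ = 0
  · have hqz : ∀ c, q c = 0 := fun c => by
      have h1 : q c ^ 2 ≤ 0 := by
        rw [hq0, zero_pow two_ne_zero] at hq
        exact hq ▸ Finset.single_le_sum (f := fun c => q c ^ 2) (fun c _ => sq_nonneg _)
          (Finset.mem_univ c)
      exact pow_eq_zero_iff two_ne_zero |>.1 (le_antisymm h1 (sq_nonneg _))
    have hK : 0 ≤ K := by
      have := h 0 0 0 (by simp)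
      rwa [hq0, show block Φ A B L 0 0 0 0 = 0 by
        simp [block, dCoef, usum, weightSum]] at this
    refine le_trans (Finset.sum_nonpos fun c _ => ?_) hK
    rw [hqz c]
    exact hz c _ _ (hu c)
  · have hc : ∀ c, block Φ A B L c (u c) (y c) (q c) ≤ q c ^ 2 / q₀ ^ 2 * K := by
      intro c
      by_cases hqc : q c = 0
      · rw [hqc]
        simpa using hz c _ _ (hu c)
      · set r := q₀ / q c
        have hr : r ≠ 0 := div_ne_zero hq0 hqc
        have h1 := h c (r • u c) (r * y c) (by simp [← Finset.mul_sum, hu c])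
        rw [show q₀ = r * q c from (div_mul_cancel₀ _ hqc).symm, block_smul] at h1
        rw [show q c ^ 2 / q₀ ^ 2 * K = K / r ^ 2 by
          simp only [r, div_pow]; field_simp]
        rw [le_div_iff₀ (by positivity), mul_comm]
        exact h1
    refine (Finset.sum_le_sum fun c _ => hc c).trans_eq ?_
    rw [← Finset.sum_mul, ← Finset.sum_div, hq, div_self (pow_ne_zero 2 hq0), one_mul]

/-- A symmetric weight against the squares of a fully symmetric tensor. -/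
lemma sym_cube {τ : Fin 4 → Fin 4 → Fin 4 → ℝ} (s₁ : ∀ a i l, τ a i l = τ a l i)
    (s₂ : ∀ a i l, τ a i l = τ i a l) (h : Fin 4 → Fin 4 → ℝ) (hh : ∀ i l, h i l = h l i) :
    ∑ a, ∑ i, ∑ l, h i l * τ a i l ^ 2 =
      (∑ c, ∑ i, (if i = c then h c c else h i i + 2 * h i c) * τ c i i ^ 2) +
      (2 * (h 0 1 + h 0 2 + h 1 2) * τ 0 1 2 ^ 2 + 2 * (h 0 1 + h 0 3 + h 1 3) * τ 0 1 3 ^ 2 +
        2 * (h 0 2 + h 0 3 + h 2 3) * τ 0 2 3 ^ 2 + 2 * (h 1 2 + h 1 3 + h 2 3) * τ 1 2 3 ^ 2) := by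
  simp [Fin.sum_univ_four, hh 1 0, hh 2 0, hh 3 0, hh 2 1, hh 3 1, hh 3 2]
  simp only [
    (s₁ 0 1 0),
    (s₁ 0 2 0),
    (s₁ 0 2 1),
    (s₁ 0 3 0),
    (s₁ 0 3 1),
    (s₁ 0 3 2),
    ((s₂ 1 0 0).trans (s₁ 0 1 0)),
    (s₂ 1 0 1),
    (s₂ 1 0 2),
    (s₂ 1 0 3),
    ((s₁ 1 1 0).trans (s₂ 1 0 1)),
    ((s₁ 1 2 0).trans (s₂ 1 0 2)),
    (s₁ 1 2 1),
    ((s₁ 1 3 0).trans (s₂ 1 0 3)),
    (s₁ 1 3 1),
    (s₁ 1 3 2),
    ((s₂ 2 0 0).trans (s₁ 0 2 0)),
    ((s₂ 2 0 1).trans (s₁ 0 2 1)),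
    (s₂ 2 0 2),
    (s₂ 2 0 3),
    ((s₁ 2 1 0).trans ((s₂ 2 0 1).trans (s₁ 0 2 1))),
    ((s₂ 2 1 1).trans (s₁ 1 2 1)),
    (s₂ 2 1 2),
    (s₂ 2 1 3),
    ((s₁ 2 2 0).trans (s₂ 2 0 2)),
    ((s₁ 2 2 1).trans (s₂ 2 1 2)),
    ((s₁ 2 3 0).trans (s₂ 2 0 3)),
    ((s₁ 2 3 1).trans (s₂ 2 1 3)),
    (s₁ 2 3 2),
    ((s₂ 3 0 0).trans (s₁ 0 3 0)),
    ((s₂ 3 0 1).trans (s₁ 0 3 1)),
    ((s₂ 3 0 2).trans (s₁ 0 3 2)),
    (s₂ 3 0 3),
    ((s₁ 3 1 0).trans ((s₂ 3 0 1).trans (s₁ 0 3 1))),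
    ((s₂ 3 1 1).trans (s₁ 1 3 1)),
    ((s₂ 3 1 2).trans (s₁ 1 3 2)),
    (s₂ 3 1 3),
    ((s₁ 3 2 0).trans ((s₂ 3 0 2).trans (s₁ 0 3 2))),
    ((s₁ 3 2 1).trans ((s₂ 3 1 2).trans (s₁ 1 3 2))),
    ((s₂ 3 2 2).trans (s₁ 2 3 2)),
    (s₂ 3 2 3),
    ((s₁ 3 3 0).trans (s₂ 3 0 3)),
    ((s₁ 3 3 1).trans (s₂ 3 1 3)),
    ((s₁ 3 3 2).trans (s₂ 3 2 3))]
  ring

section Diagonal

variable (L : Fin 4 → ℝ)

/-- The Hessian in its frame. -/
def frameHess : Mat 5 := Matrix.diagonal (Fin.cons 0 L)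

lemma dpow_frame (T : Mat 5) (j : ℕ) (i l : Fin 5) :
    dpow (frameHess L) T j i l =
      hsum j ((Fin.cons 0 L : Fin 5 → ℝ) i) ((Fin.cons 0 L : Fin 5 → ℝ) l) * T i l := by
  induction j with
  | zero => simp [dpow, hsum]
  | succ j ih =>
    rw [dpow, hsum, Matrix.add_apply, frameHess, Matrix.mul_diagonal, Matrix.diagonal_pow,
      Matrix.diagonal_mul, Pi.pow_apply]
    rw [frameHess] at ih
    rw [ih]
    ring

lemma hsum_zero_right (a : ℝ) : ∀ j : ℕ, hsum (j + 1) a 0 = a ^ j := fun j => by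
  simp [hsum]

lemma hsum_zero_left (b : ℝ) : ∀ j : ℕ, hsum (j + 1) 0 b = b ^ j
  | 0 => by simp [hsum]
  | j + 1 => by rw [hsum, hsum_zero_left b j, zero_pow (Nat.succ_ne_zero j), add_zero, pow_succ]

variable {L} {t : Fin 5 → Mat 5}

/-- A fully symmetric tracefree tensor with radial slot `-H`. -/
structure Frame (L : Fin 4 → ℝ) (t : Fin 5 → Mat 5) : Prop where
  sum_zero : ∑ i, L i = 0
  symm₁ : ∀ a i l, t a i l = t a l i
  symm₂ : ∀ a i l, t a i l = t i a l
  trace : ∀ a, (t a).trace = 0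
  radial : t 0 = -frameHess L

namespace Frame

variable (hF : Frame L t)

include hF

lemma radial_apply (i l : Fin 5) :
    t 0 i l = -frameHess L i l := by rw [hF.radial]; rfl

lemma mixed (c : Fin 4) (i : Fin 4) :
    t c.succ 0 0 = 0 ∧ t c.succ 0 i.succ = (if c = i then -L c else 0) ∧
      t c.succ i.succ 0 = (if c = i then -L c else 0) := by
  refine ⟨?_, ?_, ?_⟩
  · rw [hF.symm₂, hF.radial_apply, frameHess, Matrix.diagonal_apply_ne _ (Fin.succ_ne_zero c), neg_zero]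
  · rw [hF.symm₂, hF.radial_apply, frameHess, Matrix.diagonal_apply]
    by_cases h : c = i <;> simp [h]
  · rw [hF.symm₁, hF.symm₂, hF.radial_apply, frameHess, Matrix.diagonal_apply]
    by_cases h : c = i <;> simp [h]

lemma diag_sum_zero (c : Fin 4) : ∑ i : Fin 4, t c.succ i.succ i.succ = 0 := by
  have h := hF.trace c.succ
  rw [Matrix.trace, Fin.sum_univ_succ] at h
  simpa [(hF.mixed c c).1] using h

lemma contract_eq (m : ℕ) :
    Reduce.contract (frameHess L) t (m + 1) = Fin.cons (-psum L (m + 2))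
      (fun c : Fin 4 => usum L (fun i => t c.succ i.succ i.succ) (m + 1)) := by
  funext k
  have h : ∀ M : Mat 5, (M * frameHess L ^ (m + 1)).trace =
      ∑ i : Fin 4, L i ^ (m + 1) * M i.succ i.succ := fun M => by
    rw [frameHess, Matrix.diagonal_pow, Matrix.trace, Fin.sum_univ_succ]
    simp [Matrix.mul_diagonal, mul_comm]
  cases k using Fin.cases with
  | zero =>
    simp only [Reduce.contract, h, hF.radial_apply, Fin.cons_zero, psum]
    rw [← Finset.sum_neg_distrib]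
    exact Finset.sum_congr rfl fun i _ => by simp [frameHess]; ring
  | succ c => simp [Reduce.contract, h, usum]

/-- The triples of distinct tangential indices. -/
lemma contractDiv_eq (m : Fin 2) :
    contractDiv (frameHess L) t (m + 1) = ((m : ℕ) + 3) * psum L (m + 2) +
      (∑ c, weightSum L (fun i => t c.succ i.succ i.succ) (m + 1) c) +
      ((![6, 0] : Fin 2 → ℝ) m) * (t 1 2 3 ^ 2 + t 1 2 4 ^ 2 + t 1 3 4 ^ 2 + t 2 3 4 ^ 2) +
      ((![0, -4] : Fin 2 → ℝ) m) *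
        (L 3 * t 1 2 3 ^ 2 + L 2 * t 1 2 4 ^ 2 + L 1 * t 1 3 4 ^ 2 + L 0 * t 2 3 4 ^ 2) := by
  set h : Fin 5 → Fin 5 → ℝ := fun i l => hsum ((m : ℕ) + 1) ((Fin.cons 0 L : Fin 5 → ℝ) l)
    ((Fin.cons 0 L : Fin 5 → ℝ) i) with hh
  have e1 : contractDiv (frameHess L) t (m + 1) = ∑ a, ∑ i, ∑ l, h i l * t a i l ^ 2 := by
    simp only [contractDiv, Matrix.trace, Matrix.diag, Matrix.mul_apply, dpow_frame, hh]
    refine Finset.sum_congr rfl fun a _ => Finset.sum_congr rfl fun i _ =>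
      Finset.sum_congr rfl fun l _ => ?_
    rw [hF.symm₁ a l i]
    ring
  have hsym : ∀ i l : Fin 4, hsum ((m : ℕ) + 1) (L l) (L i) = hsum ((m : ℕ) + 1) (L i) (L l) :=
    fun i l => by fin_cases m <;> simp [hsum, add_comm]
  have e0 : ∀ i l : Fin 5, t 0 i l = -frameHess L i l := hF.radial_apply
  rw [e1, Fin.sum_univ_succ (n := 4)]
  simp only [Fin.sum_univ_succ (n := 4), e0, (hF.mixed _ 0).1, (hF.mixed _ _).2.1, (hF.mixed _ _).2.2,
    hh, Fin.cons_zero, Fin.cons_succ, frameHess, Matrix.diagonal_apply, Fin.succ_ne_zero,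
    (Fin.succ_ne_zero _).symm, if_false, if_true, Fin.succ_inj, hsum_zero_right, hsum_zero_left,
    neg_zero, ne_eq, OfNat.ofNat_ne_zero, not_false_eq_true, zero_pow, mul_zero, zero_add, add_zero,
    Finset.sum_add_distrib, Finset.sum_const_zero, ite_pow, mul_ite, Finset.sum_ite_eq,
    Finset.mem_univ, neg_sq, apply_ite (fun x : ℝ => -x)]
  rw [sym_cube (τ := fun a i l => t a.succ i.succ l.succ) (fun a i l => hF.symm₁ _ _ _)
    (fun a i l => hF.symm₂ _ _ _) (fun i l => hsum ((m : ℕ) + 1) (L l) (L i)) hsym]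
  have hL : L 3 = -(L 0 + L 1 + L 2) := by
    have := hF.sum_zero; rw [Fin.sum_univ_four] at this; linarith
  fin_cases m <;> simp [hsum, psum, weightSum, Fin.sum_univ_four, Fin.ext_iff] <;> (try rw [hL]) <;> ring

end Frame

end Diagonal

end

end Vale.Agent.P098.Reduce
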