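import Vale.Agent.P098.Reduce.Expr
import Vale.Agent.P098.SqrtTest
import Vale.Agent.P098.Jets

/-!
P098, reduction of the certificate: the derivatives of `F = r⁻³ Φ(Q, s, P)` and of the fields
`T : H^m`, `H^j g`, as the pointwise expression of the jet.
-/

open Filter Matrix
open scoped Topology ContDiff

namespace Vale.Agent.P098.Reduce

noncomputable section

variable {d : ℕ}

/-- The Hessian as a matrix. -/
def hessM (v : Euc d → ℝ) (x : Euc d) : Mat d := Matrix.of fun i j => pd j (pd i v) x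

/-- The third derivatives as a family of matrices. -/
def thirdM (v : Euc d → ℝ) (x : Euc d) : Fin d → Mat d :=
  fun k => Matrix.of fun i j => third v i j k x

/-- The point as a vector. -/
def posVec (x : Euc d) : Fin d → ℝ := fun k => x k

/-- The arguments `(Q, s, P)` of the coefficients. -/
def coefArg (v : Euc d → ℝ) (x : Euc d) : ℝ × ℝ × ℝ :=
  (‖x‖ ^ 2 * (hessM v x * hessM v x).trace, v x / ‖x‖, gradVec v x ⬝ᵥ gradVec v x)

/-- A coefficient with its partial derivatives. -/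
def coefOf (X : ℝ × ℝ × ℝ → ℝ) (z : ℝ × ℝ × ℝ) : Coef :=
  (X z, fderiv ℝ X z (1, 0, 0), fderiv ℝ X z (0, 1, 0), fderiv ℝ X z (0, 0, 1))

/-- A coefficient at a point, with its partial derivatives. -/
def coefAt (X : ℝ × ℝ × ℝ → ℝ) (v : Euc d → ℝ) (x : Euc d) : Coef := coefOf X (coefArg v x)

/-- The test function. -/
def certF (Φ : ℝ × ℝ × ℝ → ℝ) (v : Euc d → ℝ) (x : Euc d) : ℝ :=
  ‖x‖⁻¹ ^ 3 * Φ (coefArg v x)

/-- The field. -/
def certV (A : Fin 2 → ℝ × ℝ × ℝ → ℝ) (B : Fin 5 → ℝ × ℝ × ℝ → ℝ) (v : Euc d → ℝ) (k : Fin d)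
    (x : Euc d) : ℝ :=
  (∑ m : Fin 2, ‖x‖⁻¹ ^ (1 - (m : ℕ)) * A m (coefArg v x) *
      Reduce.contract (hessM v x) (thirdM v x) (m + 1) k) +
    ∑ j : Fin 5, ‖x‖⁻¹ ^ (4 - (j : ℕ)) * B j (coefArg v x) *
      (hessM v x ^ (j : ℕ) *ᵥ gradVec v x) k

variable {x : Euc d}

lemma pd_normSq (k : Fin d) : pd k (fun y : Euc d => ‖y‖ ^ 2) x = 2 * x k := by
  rw [pd, (hasStrictFDerivAt_norm_sq x).hasFDerivAt.fderiv]
  simp [EuclideanSpace.inner_single_right]

lemma hasFDerivAt_invNorm (hx : x ≠ 0) :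
    DifferentiableAt ℝ (fun y : Euc d => ‖y‖⁻¹) x ∧
      ∀ k, pd k (fun y : Euc d => ‖y‖⁻¹) x = -(x k / ‖x‖ ^ 3) := by
  have hn : 0 < ‖x‖ := norm_pos_iff.2 hx
  have hsq := (hasStrictFDerivAt_norm_sq x).hasFDerivAt
  have hd : HasDerivAt (fun t : ℝ => (√t)⁻¹) (-(1 / (2 * √(‖x‖ ^ 2))) / √(‖x‖ ^ 2) ^ 2) (‖x‖ ^ 2) :=
    ((Real.hasDerivAt_sqrt (pow_ne_zero 2 hn.ne'))).fun_inv (Real.sqrt_ne_zero'.2 (by positivity))
  have h := hd.comp_hasFDerivAt x hsq
  have e : (fun t : ℝ => (√t)⁻¹) ∘ (fun y : Euc d => ‖y‖ ^ 2) = fun y => ‖y‖⁻¹ := by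
    funext y; simp [Real.sqrt_sq (norm_nonneg y)]
  rw [e] at h
  refine ⟨h.differentiableAt, fun k => ?_⟩
  rw [pd, h.fderiv]
  simp [EuclideanSpace.inner_single_right, Real.sqrt_sq hn.le]
  field_simp

lemma pd_invNorm_pow (hx : x ≠ 0) (n : ℕ) (k : Fin d) :
    pd k (fun y : Euc d => ‖y‖⁻¹ ^ n) x = -((n : ℝ) * x k / ‖x‖ ^ (n + 2)) := by
  obtain ⟨hd, hp⟩ := hasFDerivAt_invNorm hx
  have h : HasFDerivAt (fun y : Euc d => ‖y‖⁻¹ ^ n) _ x :=
    (hasDerivAt_pow n _).comp_hasFDerivAt x hd.hasFDerivAt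
  have hn : ‖x‖ ≠ 0 := norm_ne_zero_iff.2 hx
  rw [pd, h.fderiv]
  have hp' := hp k
  rw [pd] at hp'
  simp [hp']
  rcases n with _ | n
  · simp
  · simp only [Nat.add_sub_cancel]
    field_simp
    ring

/-- The differential of a product of two matrix functions. -/
lemma pd_mat_mul {M N : Euc d → Mat d} (k i j : Fin d)
    (hM : ∀ a b, DifferentiableAt ℝ (fun y => M y a b) x)
    (hN : ∀ a b, DifferentiableAt ℝ (fun y => N y a b) x) :
    pd k (fun y => (M y * N y) i j) x =
      ((Matrix.of fun a b => pd k (fun y => M y a b) x) * N x +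
        M x * Matrix.of fun a b => pd k (fun y => N y a b) x : Mat d) i j := by
  simp only [Matrix.mul_apply, Matrix.add_apply, Matrix.of_apply, ← Finset.sum_add_distrib]
  rw [pd_sum Finset.univ k fun l _ => (hM i l).fun_mul (hN l j)]
  exact Finset.sum_congr rfl fun l _ => pd_mul k (hM i l) (hN l j)

lemma differentiableAt_mat_mul {M N : Euc d → Mat d}
    (hM : ∀ a b, DifferentiableAt ℝ (fun y => M y a b) x)
    (hN : ∀ a b, DifferentiableAt ℝ (fun y => N y a b) x) (i j : Fin d) :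
    DifferentiableAt ℝ (fun y => (M y * N y) i j) x := by
  simp only [Matrix.mul_apply]
  exact DifferentiableAt.fun_sum fun l _ => (hM i l).fun_mul (hN l j)

section Jet

variable {v : Euc d → ℝ} (h4 : ContDiffAt ℝ 4 v x)

include h4

lemma diff_hess (i j : Fin d) : DifferentiableAt ℝ (pd j (pd i v)) x :=
  (contDiffAt_pd (contDiffAt_pd h4 (m := 3) (by norm_num) i) (m := 2) (by norm_num) j).differentiableAt
    (by norm_num)

lemma diff_third (i j k : Fin d) : DifferentiableAt ℝ (third v i j k) x :=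
  (contDiffAt_pd (contDiffAt_pd (contDiffAt_pd h4 (m := 3) (by norm_num) i) (m := 2) (by norm_num) j)
    (m := 1) (by norm_num) k).differentiableAt (by norm_num)

lemma diff_grad (i : Fin d) : DifferentiableAt ℝ (pd i v) x :=
  (contDiffAt_pd h4 (m := 3) (by norm_num) i).differentiableAt (by norm_num)

lemma hess_pow_diff : ∀ (j : ℕ) (a b : Fin d),
    DifferentiableAt ℝ (fun y => (hessM v y ^ j) a b) x
  | 0, a, b => by simp only [pow_zero]; exact differentiableAt_const _
  | j + 1, a, b => by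
    simp only [pow_succ]
    exact differentiableAt_mat_mul (hess_pow_diff j) (fun a b => diff_hess h4 a b) a b

lemma pd_hess_pow (k : Fin d) : ∀ (j : ℕ) (a b : Fin d),
    pd k (fun y => (hessM v y ^ j) a b) x = dpow (hessM v x) (thirdM v x k) j a b
  | 0, a, b => by simp [dpow, pd_const]
  | j + 1, a, b => by
    simp only [pow_succ]
    rw [pd_mat_mul (M := fun y => hessM v y ^ j) (N := hessM v) k a b (hess_pow_diff h4 j)
      (fun a b => diff_hess h4 a b), dpow]
    have e1 : (Matrix.of fun a b => pd k (fun y => (hessM v y ^ j) a b) x : Mat d) =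
        dpow (hessM v x) (thirdM v x k) j := Matrix.ext fun a b => pd_hess_pow k j a b
    have e2 : (Matrix.of fun a b => pd k (fun y => hessM v y a b) x : Mat d) = thirdM v x k := rfl
    rw [e1, e2]

lemma hessM_symm : (hessM v x).transpose = hessM v x := by
  ext i j
  exact pd_comm (h4.of_le (by norm_num)) i j

lemma coefArg_pd (hx : x ≠ 0) :
    DifferentiableAt ℝ (coefArg v) x ∧ ∀ k, fderiv ℝ (coefArg v) x (EuclideanSpace.single k 1) =
      (2 * (hessM v x * hessM v x).trace * x k + 2 * ‖x‖ ^ 2 * (thirdM v x k * hessM v x).trace,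
        pd k v x / ‖x‖ - v x / ‖x‖ * x k / ‖x‖ ^ 2, 2 * (hessM v x *ᵥ gradVec v x) k) := by
  have hn : ‖x‖ ≠ 0 := norm_ne_zero_iff.2 hx
  have hN : DifferentiableAt ℝ (fun y : Euc d => ‖y‖ ^ 2) x :=
    (hasStrictFDerivAt_norm_sq x).hasFDerivAt.differentiableAt
  have dH2 := fun i => differentiableAt_mat_mul (x := x) (M := hessM v) (N := hessM v)
    (fun a b => diff_hess h4 a b) (fun a b => diff_hess h4 a b) i i
  have hT : DifferentiableAt ℝ (fun y => (hessM v y * hessM v y).trace) x :=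
    DifferentiableAt.fun_sum fun i _ => dH2 i
  obtain ⟨hI, hIp⟩ := hasFDerivAt_invNorm hx
  have hv : DifferentiableAt ℝ v x := h4.differentiableAt (by norm_num)
  have hP : DifferentiableAt ℝ (fun y => gradVec v y ⬝ᵥ gradVec v y) x :=
    DifferentiableAt.fun_sum fun i _ => (diff_grad h4 i).fun_mul (diff_grad h4 i)
  have hS : DifferentiableAt ℝ (fun y => v y / ‖y‖) x := by
    simpa [div_eq_mul_inv] using hv.fun_mul hI
  refine ⟨(hN.fun_mul hT).prodMk (hS.prodMk hP), fun k => ?_⟩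
  show fderiv ℝ (fun y => (‖y‖ ^ 2 * (hessM v y * hessM v y).trace,
    v y / ‖y‖, gradVec v y ⬝ᵥ gradVec v y)) x _ = _
  rw [DifferentiableAt.fderiv_prodMk (hN.fun_mul hT) (hS.prodMk hP),
    DifferentiableAt.fderiv_prodMk hS hP]
  simp only [ContinuousLinearMap.prod_apply]
  refine Prod.ext ?_ (Prod.ext ?_ ?_)
  · show pd k (fun y => ‖y‖ ^ 2 * (hessM v y * hessM v y).trace) x = _
    rw [pd_mul k hN hT, pd_normSq]
    have e : pd k (fun y => (hessM v y * hessM v y).trace) x =
        2 * (thirdM v x k * hessM v x).trace := by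
      refine (pd_sum Finset.univ k fun i _ => dH2 i).trans ?_
      calc ∑ i, pd k (fun y => (hessM v y * hessM v y) i i) x
          = (thirdM v x k * hessM v x + hessM v x * thirdM v x k).trace :=
            Finset.sum_congr rfl fun i _ => pd_mat_mul k i i (fun a b => diff_hess h4 a b)
              (fun a b => diff_hess h4 a b)
        _ = _ := by rw [Matrix.trace_add, Matrix.trace_mul_comm (hessM v x)]; ring
    rw [e]; ring
  · show pd k (fun y => v y / ‖y‖) x = _
    simp only [div_eq_mul_inv]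
    rw [pd_mul k hv hI, hIp]
    field_simp
    ring
  · show pd k (fun y => ∑ i, pd i v y * pd i v y) x = _
    rw [pd_sum Finset.univ k fun i _ => (diff_grad h4 i).fun_mul (diff_grad h4 i)]
    simp only [Matrix.mulVec, dotProduct, Finset.mul_sum]
    refine Finset.sum_congr rfl fun i _ => ?_
    rw [pd_mul k (diff_grad h4 i) (diff_grad h4 i)]
    have hs : pd k (pd i v) x = hessM v x k i := pd_comm (h4.of_le (by norm_num)) k i
    rw [hs]
    simp only [gradVec]
    ring

lemma pd_coef (hx : x ≠ 0) {X : ℝ × ℝ × ℝ → ℝ} (hX : DifferentiableAt ℝ X (coefArg v x))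
    (n : ℕ) (k : Fin d) :
    DifferentiableAt ℝ (fun y => ‖y‖⁻¹ ^ n * X (coefArg v y)) x ∧
      pd k (fun y => ‖y‖⁻¹ ^ n * X (coefArg v y)) x =
        weighted (posVec x) (gradVec v x) (hessM v x) (thirdM v x) ‖x‖ (v x / ‖x‖) n (coefAt X v x) k := by
  obtain ⟨hA, hAp⟩ := coefArg_pd h4 hx
  obtain ⟨hI, -⟩ := hasFDerivAt_invNorm hx
  have hc : DifferentiableAt ℝ (fun y => X (coefArg v y)) x := hX.comp x hA
  refine ⟨(hI.fun_pow n).fun_mul hc, ?_⟩
  rw [pd_mul k (hI.fun_pow n) hc, pd_invNorm_pow hx]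
  have e : pd k (fun y => X (coefArg v y)) x =
      pull (posVec x) (gradVec v x) (hessM v x) (thirdM v x) ‖x‖ (v x / ‖x‖) (coefAt X v x) k := by
    have h := (hX.hasFDerivAt.comp x hA.hasFDerivAt).fderiv
    rw [pd, show (fun y => X (coefArg v y)) = X ∘ coefArg v from rfl, h,
      ContinuousLinearMap.comp_apply, hAp k]
    have hsplit : ∀ a b c : ℝ, ((a, b, c) : ℝ × ℝ × ℝ) =
        a • ((1, 0, 0) : ℝ × ℝ × ℝ) + b • ((0, 1, 0) : ℝ × ℝ × ℝ) + c • ((0, 0, 1) : ℝ × ℝ × ℝ) :=
      fun a b c => by simp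
    rw [hsplit, map_add, map_add, map_smul, map_smul, map_smul]
    simp only [smul_eq_mul, pull, coefAt, coefOf, Pi.add_apply, Pi.sub_apply, Pi.smul_apply, posVec, gradVec]
    ring
  rw [e]
  simp only [weighted, coefAt, coefOf, Pi.add_apply, Pi.smul_apply, smul_eq_mul, posVec, inv_pow]
  ring

end Jet

/-- The Laplacian commutes with a partial derivative. -/
lemma laplace_pd {f : Euc d → ℝ} (hf : ContDiffAt ℝ 3 f x)
    (hh : (fun y => ∑ i, pd i (pd i f) y) =ᶠ[𝓝 x] fun _ => 0) (j : Fin d) :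
    (fun y => ∑ i, pd i (pd i (pd j f)) y) =ᶠ[𝓝 x] fun _ => 0 := by
  filter_upwards [hf.eventually (by norm_num), hh.eventually_nhds] with y hy hy0
  have h2 : ∀ᶠ z in 𝓝 y, ContDiffAt ℝ 2 f z :=
    (hy.of_le (by norm_num : (2 : WithTop ℕ∞) ≤ 3)).eventually (by norm_num)
  have e : ∀ i, pd i (pd i (pd j f)) y = pd j (pd i (pd i f)) y := fun i => by
    have e1 : pd i (pd j f) =ᶠ[𝓝 y] pd j (pd i f) := by
      filter_upwards [h2] with z hz using pd_comm hz i j
    rw [pd_congr e1 i, pd_comm (contDiffAt_pd hy (m := 2) (by norm_num) i) i j]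
  simp only [e]
  rw [← pd_sum Finset.univ j fun i _ =>
    (contDiffAt_pd (contDiffAt_pd hy (m := 2) (by norm_num) i) (m := 1) (by norm_num) i).differentiableAt
      one_ne_zero]
  exact pd_eq_zero_of_eventually hy0 j

/-- The pointwise expression of a certificate. -/
theorem cert_eq_jetExpr {v : Euc d → ℝ} {x : Euc d} (h4 : ContDiffAt ℝ 4 v x) (hx : x ≠ 0)
    (hharm : (fun y => ∑ i, pd i (pd i v) y) =ᶠ[𝓝 x] fun _ => 0)
    {Φ : ℝ × ℝ × ℝ → ℝ} {A : Fin 2 → ℝ × ℝ × ℝ → ℝ} {B : Fin 5 → ℝ × ℝ × ℝ → ℝ}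
    (hΦ : Differentiable ℝ Φ) (hA : ∀ m, Differentiable ℝ (A m)) (hB : ∀ j, Differentiable ℝ (B j))
    (y : Fin d → ℝ) :
    (∑ i, y i * pd i (certF Φ v) x) - (∑ i, y i ^ 2) * certF Φ v x + ∑ k, pd k (certV A B v k) x =
      jetExpr (posVec x) (gradVec v x) (hessM v x) (thirdM v x) ‖x‖ (v x / ‖x‖) (coefAt Φ v x)
        (fun m => coefAt (A m) v x) (fun j => coefAt (B j) v x) y := by
  set W := weighted (posVec x) (gradVec v x) (hessM v x) (thirdM v x) ‖x‖ (v x / ‖x‖)
  have dF : ∀ i, pd i (certF Φ v) x = W 3 (coefAt Φ v x) i := fun i =>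
    (pd_coef h4 hx (hΦ _) 3 i).2
  have dC : ∀ (m : ℕ) k, DifferentiableAt ℝ
      (fun z => Reduce.contract (hessM v z) (thirdM v z) m k) x := fun m k => by
    simp only [Reduce.contract, Matrix.trace, Matrix.diag]
    exact DifferentiableAt.fun_sum fun i _ => differentiableAt_mat_mul (M := fun z => thirdM v z k)
      (fun a b => diff_third h4 a b k) (hess_pow_diff h4 m) i i
  have dG : ∀ (j : ℕ) k, DifferentiableAt ℝ (fun z => (hessM v z ^ j *ᵥ gradVec v z) k) x :=
    fun j k => by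
      simp only [Matrix.mulVec, dotProduct]
      exact DifferentiableAt.fun_sum fun i _ => (hess_pow_diff h4 j k i).fun_mul (diff_grad h4 i)
  have h4th : ∀ a b, ∑ k, pd k (third v a b k) x = 0 := fun a b =>
    ((laplace_pd (contDiffAt_pd h4 (m := 3) (by norm_num) a)
      (laplace_pd (h4.of_le (by norm_num)) hharm a) b).eq_of_nhds)
  have divC : ∀ m : ℕ, ∑ k, pd k (fun z => Reduce.contract (hessM v z) (thirdM v z) m k) x =
      contractDiv (hessM v x) (thirdM v x) m := by
    intro m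
    have e : ∀ k, pd k (fun z => Reduce.contract (hessM v z) (thirdM v z) m k) x =
        ((Matrix.of fun a b => pd k (third v a b k) x) * hessM v x ^ m).trace +
          (thirdM v x k * dpow (hessM v x) (thirdM v x k) m).trace := fun k => by
      rw [← Matrix.trace_add]
      refine (pd_sum Finset.univ k fun i _ =>
        differentiableAt_mat_mul (fun a b => diff_third h4 a b k) (hess_pow_diff h4 m) i i).trans ?_
      refine Finset.sum_congr rfl fun i _ => (pd_mat_mul k i i (fun a b => diff_third h4 a b k)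
        (hess_pow_diff h4 m)).trans ?_
      simp only [pd_hess_pow h4]
      rfl
    simp only [e, Finset.sum_add_distrib, contractDiv]
    rw [← Matrix.trace_sum, ← Finset.sum_mul,
      show (∑ k, Matrix.of fun a b => pd k (third v a b k) x) = (0 : Mat d) from by
        ext a b; simp [Matrix.sum_apply, h4th a b]]
    simp
  have divG : ∀ j : ℕ, ∑ k, pd k (fun z => (hessM v z ^ j *ᵥ gradVec v z) k) x =
      applyDiv (gradVec v x) (hessM v x) (thirdM v x) j := by
    intro j
    have e : ∀ k, pd k (fun z => (hessM v z ^ j *ᵥ gradVec v z) k) x =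
        (dpow (hessM v x) (thirdM v x k) j *ᵥ gradVec v x) k + (hessM v x ^ j * hessM v x) k k := by
      intro k
      simp only [Matrix.mulVec, dotProduct, Matrix.mul_apply, ← Finset.sum_add_distrib]
      refine (pd_sum Finset.univ k fun i _ => (hess_pow_diff h4 j k i).fun_mul (diff_grad h4 i)).trans ?_
      refine Finset.sum_congr rfl fun i _ => ?_
      rw [pd_mul k (hess_pow_diff h4 j k i) (diff_grad h4 i), pd_hess_pow h4]
      rfl
    simp only [e, Finset.sum_add_distrib, applyDiv, pow_succ]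
    rfl
  have dV : ∀ k, pd k (certV A B v k) x =
      (∑ m : Fin 2, (W (1 - m) (coefAt (A m) v x) k *
          Reduce.contract (hessM v x) (thirdM v x) (m + 1) k +
        ‖x‖⁻¹ ^ (1 - (m : ℕ)) * A m (coefArg v x) *
          pd k (fun z => Reduce.contract (hessM v z) (thirdM v z) (m + 1) k) x)) +
      ∑ j : Fin 5, (W (4 - j) (coefAt (B j) v x) k * (hessM v x ^ (j : ℕ) *ᵥ gradVec v x) k +
        ‖x‖⁻¹ ^ (4 - (j : ℕ)) * B j (coefArg v x) *
          pd k (fun z => (hessM v z ^ (j : ℕ) *ᵥ gradVec v z) k) x) := by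
    intro k
    have d1 := fun m : Fin 2 =>
      (pd_coef h4 hx (hA m _) (1 - m) k).1.fun_mul (dC (m + 1) k)
    have d2 := fun j : Fin 5 => (pd_coef h4 hx (hB j _) (4 - j) k).1.fun_mul (dG j k)
    refine (pd_add k (DifferentiableAt.fun_sum fun m _ => d1 m)
      (DifferentiableAt.fun_sum fun j _ => d2 j)).trans ?_
    rw [pd_sum Finset.univ k fun m _ => d1 m, pd_sum Finset.univ k fun j _ => d2 j]
    congr 1
    · refine Finset.sum_congr rfl fun m _ => ?_
      rw [pd_mul k (pd_coef h4 hx (hA m _) (1 - m) k).1 (dC (m + 1) k),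
        (pd_coef h4 hx (hA m _) (1 - m) k).2]
    · refine Finset.sum_congr rfl fun j _ => ?_
      rw [pd_mul k (pd_coef h4 hx (hB j _) (4 - j) k).1 (dG j k),
        (pd_coef h4 hx (hB j _) (4 - j) k).2]
  simp only [dF, dV, Finset.sum_add_distrib]
  simp only [Fin.sum_univ_two, Fin.sum_univ_five, Finset.sum_add_distrib]
  simp only [← Finset.mul_sum, divC, divG, jetExpr, dotProduct, Finset.sum_add_distrib, certF,
    coefAt, coefOf, Fin.sum_univ_two, Fin.sum_univ_five, inv_pow, pow_two, W]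
  ring

end

end Vale.Agent.P098.Reduce
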