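import Vale.Agent.P098.Reduce.Block

/-!
P098, reduction of the certificate: the pointwise expression at a point of norm one in an
eigenframe, bounded by the scalar inequality.
-/

open Matrix

namespace Vale.Agent.P098.Reduce

noncomputable section

/-- The scalar inequality for coefficients with values and partial derivatives given. -/
structure PointIneq (Φ : Coef) (A : Fin 2 → Coef) (B : Fin 5 → Coef) (L : Fin 4 → ℝ) (s q₀ β : ℝ) :
    Prop where
  nonneg : 0 ≤ Φ.1
  triple : ∀ d, 6 * (A 0).1 - 4 * L d * (A 1).1 ≤ 0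
  block : ∀ c u y, ∑ i, u i = 0 → block Φ A B L c u y q₀ + constPart Φ A B L s ≤ β

namespace Frame

variable {L : Fin 4 → ℝ} {t : Fin 5 → Mat 5} (hF : Frame L t) {s : ℝ} {q : Fin 4 → ℝ}

include hF

omit hF in
lemma trace_frameHess_pow (m : ℕ) : (frameHess L ^ (m + 1)).trace = psum L (m + 1) := by
  rw [frameHess, Matrix.diagonal_pow, Matrix.trace_diagonal, Fin.sum_univ_succ]
  simp [psum]

lemma pull_eq (X : Coef) :
    pull (Fin.cons 1 0) (Fin.cons s q) (frameHess L) t 1 s X = Fin.cons 0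
      (fun c : Fin 4 => dCoef X L (fun i => t c.succ i.succ i.succ) c (q c)) := by
  have h1 := hF.contract_eq 0
  unfold Reduce.contract at h1
  simp only [zero_add, pow_one] at h1
  have h2 : (frameHess L * frameHess L).trace = psum L 2 := by
    rw [← pow_two]; exact trace_frameHess_pow 1
  funext k
  have h1k := congrFun h1 k
  beta_reduce at h1k
  simp only [pull, Pi.add_apply, Pi.sub_apply, Pi.smul_apply, smul_eq_mul, one_pow, div_one]
  rw [h1k, h2, frameHess, Matrix.mulVec_diagonal]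
  cases k using Fin.cases with
  | zero => simp
  | succ c => simp [dCoef]; ring

lemma weighted_eq (n : ℕ) (X : Coef) :
    weighted (Fin.cons 1 0) (Fin.cons s q) (frameHess L) t 1 s n X = Fin.cons (-((n : ℝ) * X.1))
      (fun c : Fin 4 => dCoef X L (fun i => t c.succ i.succ i.succ) c (q c)) := by
  funext k
  simp only [weighted, hF.pull_eq, Pi.add_apply, Pi.smul_apply, smul_eq_mul, one_pow, div_one]
  cases k using Fin.cases with
  | zero => simp
  | succ c => simp

lemma applyDiv_eq (j : ℕ) :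
    applyDiv (Fin.cons s q) (frameHess L) t j =
      (if j = 0 then 0 else psum L (j + 1) - s * psum L j) +
        ∑ c, q c * ∑ i, hsum j (L i) (L c) * t c.succ i.succ i.succ := by
  rcases j with _ | j
  · simp [applyDiv, dpow, hsum, frameHess, Matrix.trace_diagonal, Fin.sum_univ_succ (n := 4),
      hF.sum_zero]
  have e0 : ∀ l : Fin 5, t 0 0 l = 0 := fun l => by
    rw [hF.radial_apply, frameHess]
    cases l using Fin.cases with
    | zero => simp
    | succ l => rw [Matrix.diagonal_apply_ne _ (Fin.succ_ne_zero l).symm, neg_zero]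
  have e1 : ∀ a : Fin 4, ∀ l : Fin 4, t a.succ a.succ l.succ = t l.succ a.succ a.succ :=
    fun a l => by rw [hF.symm₁ a.succ a.succ l.succ, hF.symm₂ a.succ l.succ a.succ]
  have e2 : ∀ a : Fin 4, t a.succ a.succ 0 = -L a := fun a => by
    simpa using (hF.mixed a a).2.2
  rw [applyDiv, trace_frameHess_pow, if_neg (Nat.succ_ne_zero j)]
  simp only [Matrix.mulVec, dotProduct, dpow_frame, Fin.sum_univ_succ (n := 4), e0, e2,
    Fin.cons_zero, Fin.cons_succ, hsum_zero_right, mul_zero, zero_mul, Finset.sum_const_zero,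
    add_zero, zero_add, Finset.sum_add_distrib]
  have e3 : ∑ a : Fin 4, L a ^ j * -L a * s = -(s * psum L (j + 1)) := by
    rw [psum, Finset.mul_sum, ← Finset.sum_neg_distrib]
    exact Finset.sum_congr rfl fun a _ => by ring
  have e4 : ∑ a : Fin 4, ∑ l : Fin 4, hsum (j + 1) (L a) (L l) * t a.succ a.succ l.succ * q l =
      ∑ c, q c * ∑ i, hsum (j + 1) (L i) (L c) * t c.succ i.succ i.succ := by
    rw [Finset.sum_comm]
    refine Finset.sum_congr rfl fun c _ => ?_
    rw [Finset.mul_sum]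
    exact Finset.sum_congr rfl fun i _ => by rw [e1 i c]; ring
  linarith

/-- The expression in an eigenframe is bounded by the scalar inequality. -/
theorem jetExpr_le {Φ : Coef} {A : Fin 2 → Coef} {B : Fin 5 → Coef} {q₀ β : ℝ}
    (hq : ∑ c, q c ^ 2 = q₀ ^ 2) (h : PointIneq Φ A B L s q₀ β) (y : Fin 5 → ℝ) :
    jetExpr (Fin.cons 1 0) (Fin.cons s q) (frameHess L) t 1 s Φ A B y ≤ β := by
  set y₀ := y 0 with hy₀
  set y' : Fin 4 → ℝ := fun c => y c.succ with hy'
  set u : Fin 4 → Fin 4 → ℝ := fun c i => t c.succ i.succ i.succ with hu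
  have hsum := sum_block_le (K := β - constPart Φ A B L s)
    (fun c v z hv => by linarith [h.block c v z hv]) q y' u hF.diag_sum_zero hq
  have hs0 : psum L 1 = 0 := by simp only [psum, pow_one]; exact hF.sum_zero
  set T := t 1 2 3 ^ 2 + t 1 2 4 ^ 2 + t 1 3 4 ^ 2 + t 2 3 4 ^ 2
  have htri : (A 0).1 * (6 * T) + (A 1).1 * (-4 *
      (L 3 * t 1 2 3 ^ 2 + L 2 * t 1 2 4 ^ 2 + L 1 * t 1 3 4 ^ 2 + L 0 * t 2 3 4 ^ 2)) ≤ 0 := by
    have a0 := mul_nonpos_of_nonpos_of_nonneg (h.triple 3) (sq_nonneg (t 1 2 3))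
    have a1 := mul_nonpos_of_nonpos_of_nonneg (h.triple 2) (sq_nonneg (t 1 2 4))
    have a2 := mul_nonpos_of_nonpos_of_nonneg (h.triple 1) (sq_nonneg (t 1 3 4))
    have a3 := mul_nonpos_of_nonpos_of_nonneg (h.triple 0) (sq_nonneg (t 2 3 4))
    simp only [T]
    linarith
  have hrad : -(3 * y₀ * Φ.1) - y₀ ^ 2 * Φ.1 ≤ 9 / 4 * Φ.1 := by
    nlinarith [mul_nonneg h.nonneg (sq_nonneg (y₀ + 3 / 2))]
  have expand : jetExpr (Fin.cons 1 0) (Fin.cons s q) (frameHess L) t 1 s Φ A B y =
      (-(3 * y₀ * Φ.1) - y₀ ^ 2 * Φ.1 - 9 / 4 * Φ.1) + constPart Φ A B L s +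
        (∑ c, block Φ A B L c (u c) (y' c) (q c)) +
        ((A 0).1 * (6 * T) + (A 1).1 * (-4 *
          (L 3 * t 1 2 3 ^ 2 + L 2 * t 1 2 4 ^ 2 + L 1 * t 1 3 4 ^ 2 + L 0 * t 2 3 4 ^ 2))) := by
    simp only [jetExpr, hF.weighted_eq, hF.contract_eq, hF.contractDiv_eq, hF.applyDiv_eq,
      one_pow, div_one]
    simp only [dotProduct, Fin.sum_univ_succ (n := 4), Fin.cons_zero, Fin.cons_succ, frameHess,
      Matrix.diagonal_pow, Matrix.mulVec_diagonal, Pi.pow_apply]
    simp only [block, constPart, hu, hy₀, hy', T, Finset.sum_add_distrib, Finset.sum_sub_distrib,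
      Fin.sum_univ_two, Fin.sum_univ_five, Fin.sum_univ_four]
    simp [hs0]
    ring
  rw [expand]
  linarith

end Frame

end

end Vale.Agent.P098.Reduce
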