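import Mathlib

/-!
P098, reduction of the certificate: the pointwise expression `y · ∇F - |y|² F + div V` as a function
of the second and third order jet, its invariance under rotations and its scaling.
-/

open Matrix

namespace Vale.Agent.P098.Reduce

noncomputable section

variable {d : ℕ}

/-- Square matrices. -/
abbrev Mat (d : ℕ) : Type := Matrix (Fin d) (Fin d) ℝ

/-- The derivative of the `j`-th power along `T`. -/
def dpow (H T : Mat d) : ℕ → Mat d
  | 0 => 0
  | j + 1 => dpow H T j * H + H ^ j * T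

/-- A value and the three partial derivatives of a coefficient. -/
abbrev Coef : Type := ℝ × ℝ × ℝ × ℝ

/-- The differential of a coefficient of `(Q, s, P)`, with `Q = r² |H|²`, `s = v / r`, `P = |g|²`. -/
def pull (x g : Fin d → ℝ) (H : Mat d) (T : Fin d → Mat d) (r s : ℝ) (X : Coef) : Fin d → ℝ :=
  (2 * X.2.1 * (H * H).trace) • x + (2 * X.2.1 * r ^ 2) • (fun k => (T k * H).trace) +
    (X.2.2.1 / r) • g - (X.2.2.1 * s / r ^ 2) • x + (2 * X.2.2.2) • (H *ᵥ g)

/-- The differential of `r ^ (-n)` times a coefficient. -/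
def weighted (x g : Fin d → ℝ) (H : Mat d) (T : Fin d → Mat d) (r s : ℝ) (n : ℕ) (X : Coef) :
    Fin d → ℝ :=
  (-((n : ℝ) * X.1 / r ^ (n + 2))) • x + (1 / r ^ n) • pull x g H T r s X

/-- The field `T : H^m`. -/
def contract (H : Mat d) (T : Fin d → Mat d) (m : ℕ) : Fin d → ℝ :=
  fun k => (T k * H ^ m).trace

/-- The divergence of `T : H^m`. -/
def contractDiv (H : Mat d) (T : Fin d → Mat d) (m : ℕ) : ℝ :=
  ∑ k, (T k * dpow H (T k) m).trace

/-- The divergence of `H^j g`. -/
def applyDiv (g : Fin d → ℝ) (H : Mat d) (T : Fin d → Mat d) (j : ℕ) : ℝ :=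
  (∑ k, (dpow H (T k) j *ᵥ g) k) + (H ^ (j + 1)).trace

/-- The pointwise expression of a certificate with coefficients `Φ`, `A`, `B`. -/
def jetExpr (x g : Fin d → ℝ) (H : Mat d) (T : Fin d → Mat d) (r s : ℝ) (Φ : Coef)
    (A : Fin 2 → Coef) (B : Fin 5 → Coef) (y : Fin d → ℝ) : ℝ :=
  y ⬝ᵥ weighted x g H T r s 3 Φ - (y ⬝ᵥ y) * (Φ.1 / r ^ 3) +
    (∑ m : Fin 2, (weighted x g H T r s (1 - m) (A m) ⬝ᵥ contract H T (m + 1) +
      (A m).1 / r ^ (1 - (m : ℕ)) * contractDiv H T (m + 1))) +
    ∑ j : Fin 5, (weighted x g H T r s (4 - j) (B j) ⬝ᵥ (H ^ (j : ℕ) *ᵥ g) +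
      (B j).1 / r ^ (4 - (j : ℕ)) * applyDiv g H T j)

/-- The matrices in the rotated frame. -/
def conj (O H : Mat d) : Mat d := O.transpose * H * O

/-- A family of matrices indexed by a direction, in the rotated frame. -/
def rot (O : Mat d) (T : Fin d → Mat d) : Fin d → Mat d :=
  fun a => conj O (∑ k, O k a • T k)

section Rotation

variable {O : Mat d} (hO : O.transpose * O = 1)

include hO

lemma mul_transpose_self : O * O.transpose = 1 := mul_eq_one_comm.1 hO

lemma conj_mul (A B : Mat d) : conj O A * conj O B = conj O (A * B) := by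
  simp only [conj, Matrix.mul_assoc]
  rw [← Matrix.mul_assoc O O.transpose, mul_transpose_self hO, Matrix.one_mul]

lemma conj_pow (A : Mat d) : ∀ n : ℕ, conj O A ^ n = conj O (A ^ n)
  | 0 => by simp [conj, hO]
  | n + 1 => by rw [pow_succ, pow_succ, conj_pow A n, conj_mul hO]

lemma trace_conj (A : Mat d) : (conj O A).trace = A.trace := by
  rw [conj, Matrix.trace_mul_comm, ← Matrix.mul_assoc, mul_transpose_self hO, Matrix.one_mul]

lemma dot_rot (a b : Fin d → ℝ) : (O.transpose *ᵥ a) ⬝ᵥ (O.transpose *ᵥ b) = a ⬝ᵥ b := by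
  rw [Matrix.dotProduct_mulVec, Matrix.vecMul_transpose, Matrix.mulVec_mulVec,
    mul_transpose_self hO, Matrix.one_mulVec]

lemma conj_mulVec (A : Mat d) (a : Fin d → ℝ) :
    conj O A *ᵥ (O.transpose *ᵥ a) = O.transpose *ᵥ (A *ᵥ a) := by
  rw [conj, Matrix.mulVec_mulVec, Matrix.mulVec_mulVec, Matrix.mul_assoc,
    mul_transpose_self hO, Matrix.mul_one]

lemma contract_rot (T : Fin d → Mat d) (H : Mat d) (m : ℕ) :
    contract (conj O H) (rot O T) m = O.transpose *ᵥ contract H T m := by
  funext a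
  rw [contract, conj_pow hO, rot, conj_mul hO, trace_conj hO, Finset.sum_mul, Matrix.trace_sum]
  simp [contract, Matrix.mulVec, dotProduct, Matrix.transpose_apply]

lemma sum_col (F : Fin d → Fin d → ℝ) :
    ∑ a, ∑ k, ∑ l, O k a * O l a * F k l = ∑ k, F k k := by
  rw [Finset.sum_comm]
  refine Finset.sum_congr rfl fun k _ => ?_
  rw [Finset.sum_comm]
  have h : ∀ l, ∑ a, O k a * O l a = (1 : Mat d) k l := fun l => by
    rw [← mul_transpose_self hO]
    simp [Matrix.mul_apply, Matrix.transpose_apply]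
  simp only [← Finset.sum_mul, h, Matrix.one_apply, ite_mul, one_mul, zero_mul,
    Finset.sum_ite_eq, Finset.mem_univ, if_true]

lemma dpow_rot (H : Mat d) (T : Mat d) :
    ∀ j : ℕ, dpow (conj O H) (conj O T) j = conj O (dpow H T j)
  | 0 => by simp [dpow, conj]
  | j + 1 => by
    rw [dpow, dpow, dpow_rot H T j, conj_pow hO, conj_mul hO, conj_mul hO]
    simp [conj, Matrix.mul_add, Matrix.add_mul]

omit hO in
lemma dpow_smul_sum (H : Mat d) (c : Fin d → ℝ) (T : Fin d → Mat d) :
    ∀ j : ℕ, dpow H (∑ k, c k • T k) j = ∑ k, c k • dpow H (T k) j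
  | 0 => by simp [dpow]
  | j + 1 => by
    simp only [dpow, dpow_smul_sum H c T j, Finset.sum_mul, Finset.mul_sum, smul_mul_assoc,
      mul_smul_comm, smul_add, Finset.sum_add_distrib]

lemma contractDiv_rot (H : Mat d) (T : Fin d → Mat d) (m : ℕ) :
    contractDiv (conj O H) (rot O T) m = contractDiv H T m := by
  simp only [contractDiv, rot, dpow_rot hO, dpow_smul_sum, conj_mul hO, trace_conj hO,
    Finset.sum_mul, Finset.mul_sum, smul_mul_assoc, mul_smul_comm, Matrix.trace_sum,
    Matrix.trace_smul, smul_eq_mul]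
  refine Eq.trans ?_ (sum_col hO fun k l => (T k * dpow H (T l) m).trace)
  exact Finset.sum_congr rfl fun a _ => (Finset.sum_comm.trans (Finset.sum_congr rfl fun k _ =>
    Finset.sum_congr rfl fun l _ => by ring))

lemma applyDiv_rot (g : Fin d → ℝ) (H : Mat d) (T : Fin d → Mat d) (j : ℕ) :
    applyDiv (O.transpose *ᵥ g) (conj O H) (rot O T) j = applyDiv g H T j := by
  rw [applyDiv, applyDiv, conj_pow hO, trace_conj hO]
  congr 1
  simp only [rot, dpow_rot hO, conj_mulVec hO, dpow_smul_sum, Matrix.sum_mulVec,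
    Matrix.smul_mulVec, Matrix.mulVec_sum, Matrix.mulVec_smul]
  refine Eq.trans ?_ (sum_col hO fun k l => (dpow H (T k) j *ᵥ g) l)
  refine Finset.sum_congr rfl fun a _ => ?_
  rw [Finset.sum_apply]
  refine Finset.sum_congr rfl fun k _ => ?_
  rw [Pi.smul_apply, smul_eq_mul]
  generalize dpow H (T k) j *ᵥ g = w
  simp only [Matrix.mulVec, dotProduct, Matrix.transpose_apply, Finset.mul_sum, mul_assoc]

lemma pull_rot (x g : Fin d → ℝ) (H : Mat d) (T : Fin d → Mat d) (r s : ℝ) (X : Coef) :
    pull (O.transpose *ᵥ x) (O.transpose *ᵥ g) (conj O H) (rot O T) r s X =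
      O.transpose *ᵥ pull x g H T r s X := by
  have h : (fun k => (rot O T k * conj O H).trace) = O.transpose *ᵥ fun k => (T k * H).trace := by
    have h := contract_rot hO T H 1
    unfold Reduce.contract at h
    simpa only [pow_one] using h
  simp only [pull, conj_mul hO, trace_conj hO, conj_mulVec hO, h, Matrix.mulVec_add,
    Matrix.mulVec_sub, Matrix.mulVec_smul]

/-- The expression does not depend on the orthonormal frame. -/
theorem jetExpr_rot (x g : Fin d → ℝ) (H : Mat d) (T : Fin d → Mat d) (r s : ℝ) (Φ : Coef)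
    (A : Fin 2 → Coef) (B : Fin 5 → Coef) (y : Fin d → ℝ) :
    jetExpr (O.transpose *ᵥ x) (O.transpose *ᵥ g) (conj O H) (rot O T) r s Φ A B
        (O.transpose *ᵥ y) = jetExpr x g H T r s Φ A B y := by
  have hw : ∀ n X, weighted (O.transpose *ᵥ x) (O.transpose *ᵥ g) (conj O H) (rot O T) r s n X =
      O.transpose *ᵥ weighted x g H T r s n X := fun n X => by
    simp only [weighted, pull_rot hO, Matrix.mulVec_add, Matrix.mulVec_smul]
  simp only [jetExpr, hw, contract_rot hO, contractDiv_rot hO, applyDiv_rot hO, conj_pow hO,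
    conj_mulVec hO, dot_rot hO]

end Rotation

section Scaling

lemma dpow_smul (a b : ℝ) (H T : Mat d) : ∀ j : ℕ,
    a • dpow (a • H) (b • T) j = (b * a ^ j) • dpow H T j
  | 0 => by simp [dpow]
  | j + 1 => by
    simp only [dpow, smul_add, mul_smul_comm, smul_pow, smul_mul_assoc, smul_smul]
    rw [show a * a = a * a from rfl, ← smul_smul a a, ← smul_mul_assoc, dpow_smul a b H T j,
      smul_mul_assoc, smul_smul]
    congr 2 <;> ring

lemma contract_smul (r : ℝ) (H : Mat d) (T : Fin d → Mat d) (m : ℕ) :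
    contract (r • H) (fun k => r ^ 2 • T k) m = r ^ (m + 2) • contract H T m := by
  funext k
  simp only [contract, smul_pow, smul_mul_assoc, mul_smul_comm, smul_smul, Matrix.trace_smul,
    Pi.smul_apply, smul_eq_mul]
  ring

lemma contractDiv_smul {r : ℝ} (hr : r ≠ 0) (H : Mat d) (T : Fin d → Mat d) (m : ℕ) :
    contractDiv (r • H) (fun k => r ^ 2 • T k) m = r ^ (m + 3) * contractDiv H T m := by
  have h : ∀ k, dpow (r • H) (r ^ 2 • T k) m = (r * r ^ m) • dpow H (T k) m := fun k => by
    have := congrArg (fun M => r⁻¹ • M) (dpow_smul r (r ^ 2) H (T k) m)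
    simp only [smul_smul, inv_mul_cancel₀ hr, one_smul] at this
    rw [this]
    congr 1
    field_simp
  simp only [contractDiv, h, smul_mul_assoc, mul_smul_comm, smul_smul, Matrix.trace_smul,
    smul_eq_mul, Finset.mul_sum]
  exact Finset.sum_congr rfl fun k _ => by ring

lemma applyDiv_smul {r : ℝ} (hr : r ≠ 0) (g : Fin d → ℝ) (H : Mat d) (T : Fin d → Mat d) (j : ℕ) :
    applyDiv g (r • H) (fun k => r ^ 2 • T k) j = r ^ (j + 1) * applyDiv g H T j := by
  have h : ∀ k, dpow (r • H) (r ^ 2 • T k) j = (r * r ^ j) • dpow H (T k) j := fun k => by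
    have := congrArg (fun M => r⁻¹ • M) (dpow_smul r (r ^ 2) H (T k) j)
    simp only [smul_smul, inv_mul_cancel₀ hr, one_smul] at this
    rw [this]
    congr 1
    field_simp
  simp only [applyDiv, h, Matrix.smul_mulVec, Pi.smul_apply, smul_pow, Matrix.trace_smul,
    smul_eq_mul, mul_add, Finset.mul_sum]
  congr 1
  exact Finset.sum_congr rfl fun k _ => by ring

/-- The expression is homogeneous of degree `-5`. -/
theorem jetExpr_scale {r : ℝ} (hr : r ≠ 0) (x g : Fin d → ℝ) (H : Mat d) (T : Fin d → Mat d) (s : ℝ)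
    (Φ : Coef) (A : Fin 2 → Coef) (B : Fin 5 → Coef) (y : Fin d → ℝ) :
    jetExpr (r⁻¹ • x) g (r • H) (fun k => r ^ 2 • T k) 1 s Φ A B (r • y) =
      r ^ 5 * jetExpr x g H T r s Φ A B y := by
  have hp : ∀ X, pull (r⁻¹ • x) g (r • H) (fun k => r ^ 2 • T k) 1 s X = r • pull x g H T r s X := by
    intro X
    funext k
    simp only [pull, Pi.add_apply, Pi.sub_apply, Pi.smul_apply, smul_eq_mul, smul_mul_assoc,
      mul_smul_comm, smul_smul, Matrix.trace_smul, Matrix.smul_mulVec, one_pow, div_one]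
    field_simp
  have hw : ∀ n X, weighted (r⁻¹ • x) g (r • H) (fun k => r ^ 2 • T k) 1 s n X =
      r ^ (n + 1) • weighted x g H T r s n X := fun n X => by
    funext k
    simp only [weighted, hp, Pi.add_apply, Pi.smul_apply, smul_eq_mul, one_pow, div_one, one_mul]
    field_simp
    ring
  simp only [jetExpr, hw, contract_smul, contractDiv_smul hr, applyDiv_smul hr, smul_pow,
    Matrix.smul_mulVec, smul_dotProduct, dotProduct_smul, smul_eq_mul, Fin.sum_univ_two,
    Fin.sum_univ_five, one_pow, div_one]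
  norm_num
  field_simp

end Scaling

end

end Vale.Agent.P098.Reduce
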