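import Vale.Agent.P098.Reduce.Expr
import Vale.Agent.P098.Reduce.Block

/-!
P098, reduction of the certificate: an orthonormal eigenframe of a symmetric matrix containing a
given unit vector of its kernel.
-/

open Matrix

namespace Vale.Agent.P098.Reduce

noncomputable section

lemma mulVec_sq_le (H : Mat 5) (z : Fin 5 → ℝ) (hs : H.transpose = H) :
    (H *ᵥ z) ⬝ᵥ (H *ᵥ z) ≤ (H * H).trace * (z ⬝ᵥ z) := by
  have e : (H * H).trace = ∑ i, ∑ l, H i l * H i l := by
    simp only [Matrix.trace, Matrix.diag, Matrix.mul_apply]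
    refine Finset.sum_congr rfl fun i _ => Finset.sum_congr rfl fun l _ => ?_
    conv_lhs => arg 2; rw [← hs, Matrix.transpose_apply]
  rw [e, Finset.sum_mul]
  refine Finset.sum_le_sum fun i _ => ?_
  simpa [Matrix.mulVec, dotProduct, pow_two] using
    Finset.sum_mul_sq_le_sq_mul_sq Finset.univ (H i) z

/-- An eigenframe whose first vector is `e`. -/
theorem exists_frame {H : Mat 5} (hs : H.transpose = H) (ht : H.trace = 0) {e : Fin 5 → ℝ}
    (he : e ⬝ᵥ e = 1) (hHe : H *ᵥ e = 0) :
    ∃ (O : Mat 5) (L : Fin 4 → ℝ), O.transpose * O = 1 ∧ O.transpose *ᵥ e = Fin.cons 1 0 ∧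
      conj O H = frameHess L ∧ ∑ i, L i = 0 := by
  set c := 1 + (H * H).trace with hc
  set H' := H + c • vecMulVec e e with hH'
  have hsymm : H'.IsHermitian := by
    rw [isHermitian_iff_isSymm, Matrix.IsSymm, hH', Matrix.transpose_add, hs, Matrix.transpose_smul,
      Matrix.transpose_vecMulVec]
  set U : Mat 5 := (hsymm.eigenvectorUnitary : Mat 5)
  have hU : U.transpose * U = 1 := by
    have h := Unitary.star_mul_self_of_mem hsymm.eigenvectorUnitary.2
    rwa [Matrix.star_eq_conjTranspose, Matrix.conjTranspose_eq_transpose_of_trivial] at h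
  set lam := hsymm.eigenvalues
  have hD : conj U H' = diagonal lam := by
    have h := hsymm.conjStarAlgAut_star_eigenvectorUnitary
    simp only [Unitary.conjStarAlgAut_apply, Unitary.coe_star, star_star] at h
    rw [Matrix.star_eq_conjTranspose, Matrix.conjTranspose_eq_transpose_of_trivial] at h
    rw [conj]
    exact h
  set w := U.transpose *ᵥ e with hw
  have hw1 : w ⬝ᵥ w = 1 := (dot_rot hU e e).trans he
  have hH'e : H' *ᵥ e = c • e := by
    rw [hH', Matrix.add_mulVec, hHe, zero_add, Matrix.smul_mulVec, Matrix.vecMulVec_mulVec, he]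
    simp
  have hev : ∀ a, (lam a - c) * w a = 0 := fun a => by
    have h := congrFun (conj_mulVec hU H' e) a
    rw [hD, Matrix.mulVec_diagonal, hH'e, Matrix.mulVec_smul, Pi.smul_apply, smul_eq_mul, ← hw] at h
    linarith
  obtain ⟨a₀, ha₀⟩ : ∃ a, w a ≠ 0 := by
    by_contra h
    push Not at h
    have : w ⬝ᵥ w = 0 := by simp [dotProduct, h]
    linarith
  have hla : lam a₀ = c := sub_eq_zero.1 ((mul_eq_zero.1 (hev a₀)).resolve_right ha₀)
  have honly : ∀ b, b ≠ a₀ → w b = 0 := fun b hb => by
    by_contra hwb
    have hlb : lam b = c := sub_eq_zero.1 ((mul_eq_zero.1 (hev b)).resolve_right hwb)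
    set z' : Fin 5 → ℝ := w b • Pi.single a₀ 1 - w a₀ • Pi.single b 1 with hz'
    set z := U *ᵥ z'
    have hUz : U.transpose *ᵥ z = z' := by rw [Matrix.mulVec_mulVec, hU, Matrix.one_mulVec]
    have hze : e ⬝ᵥ z = 0 := by
      rw [← dot_rot hU e z, hUz, ← hw, hz', dotProduct_sub, dotProduct_smul, dotProduct_smul,
        dotProduct_single, dotProduct_single]
      simp [mul_comm]
    have hH'z : H' *ᵥ z = c • z := by
      have hdz : diagonal lam *ᵥ z' = c • z' := by
        funext i
        rw [Matrix.mulVec_diagonal, hz']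
        by_cases h1 : i = a₀
        · subst h1; simp [Ne.symm hb, hla]
        · by_cases h2 : i = b
          · subst h2; simp [h1, hlb]
          · simp [h1, h2]
      have h := conj_mulVec hU H' z
      rw [hD, hUz, hdz] at h
      have h' := congrArg (fun v => U *ᵥ v) h
      simp only [Matrix.mulVec_smul, Matrix.mulVec_mulVec, ← Matrix.mul_assoc,
        mul_transpose_self hU, Matrix.one_mul] at h'
      exact h'.symm
    have hHz : H *ᵥ z = c • z := by
      rw [hH', Matrix.add_mulVec, Matrix.smul_mulVec, Matrix.vecMulVec_mulVec, hze] at hH'z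
      simpa using hH'z
    have hle := mulVec_sq_le H z hs
    rw [hHz, smul_dotProduct, dotProduct_smul, smul_eq_mul, smul_eq_mul] at hle
    have hz0 : 0 ≤ z ⬝ᵥ z := Finset.sum_nonneg fun i _ => mul_self_nonneg _
    have htr : 0 ≤ (H * H).trace := by
      have := mulVec_sq_le H e hs
      rw [hHe, he, zero_dotProduct, mul_one] at this
      exact this
    have hzz : z ⬝ᵥ z = 0 := by
      rw [hc] at hle
      nlinarith [mul_nonneg htr hz0, mul_nonneg (mul_nonneg htr htr) hz0]
    have : z' = 0 := by
      rw [← hUz, dotProduct_self_eq_zero.1 hzz, Matrix.mulVec_zero]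
    have := congrFun this b
    simp [hz', hb] at this
    exact ha₀ this
  -- reorder the eigenframe
  set π := Equiv.swap 0 a₀ with hπ
  set σ : Fin 5 → ℝ := fun j => if j = 0 then w a₀ else 1 with hσ
  have hwsq : w a₀ * w a₀ = 1 := by
    rw [← hw1, dotProduct, Finset.sum_eq_single a₀ (fun b _ hb => by simp [honly b hb]) (by simp)]
  have hσ2 : ∀ j, σ j * σ j = 1 := fun j => by
    simp only [hσ]; split <;> simp [hwsq]
  set O : Mat 5 := (U.submatrix id π) * diagonal σ with hO
  have hOT : O.transpose = diagonal σ * U.transpose.submatrix π id := by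
    rw [hO, Matrix.transpose_mul, Matrix.diagonal_transpose, Matrix.transpose_submatrix]
  have hsub : ∀ M : Mat 5, U.transpose.submatrix π id * M * U.submatrix id π =
      (conj U M).submatrix π π := fun M => by
    ext i j
    simp [conj, Matrix.mul_apply, Matrix.submatrix_apply]
  have hO1 : O.transpose * O = 1 := by
    rw [hOT, hO, ← Matrix.mul_assoc, Matrix.mul_assoc (diagonal σ)]
    have h1 : U.transpose.submatrix π id * U.submatrix id π = 1 := by
      have := hsub 1
      rw [Matrix.mul_one] at this
      rw [this, conj, Matrix.mul_one, hU, Matrix.submatrix_one_equiv]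
    rw [h1, Matrix.mul_one, Matrix.diagonal_mul_diagonal, ← Matrix.diagonal_one]
    simp only [hσ2]
  have hHe' : conj O H' = diagonal fun j => lam (π j) := by
    rw [conj, hOT, hO, ← Matrix.mul_assoc, Matrix.mul_assoc (diagonal σ) _ H',
      Matrix.mul_assoc (diagonal σ), hsub, hD, Matrix.submatrix_diagonal_equiv,
      Matrix.diagonal_mul_diagonal, Matrix.diagonal_mul_diagonal]
    congr 1
    funext j
    simp only [Function.comp_apply]
    linear_combination lam (π j) * hσ2 j
  have hOe : O.transpose *ᵥ e = Fin.cons 1 0 := by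
    funext j
    rw [hOT, ← Matrix.mulVec_mulVec, Matrix.mulVec_diagonal]
    have : (U.transpose.submatrix π id *ᵥ e) j = w (π j) := rfl
    rw [this]
    cases j using Fin.cases with
    | zero => simp [hσ, hπ, hwsq]
    | succ k =>
      have hne : π k.succ ≠ a₀ := fun h => by
        rw [hπ] at h
        have := (Equiv.swap_apply_eq_iff.1 h)
        simp at this
      simp [honly _ hne]
  have hconj : conj O H = diagonal fun j => lam (π j) - if j = 0 then c else 0 := by
    have e1 : conj O H' = conj O H + c • conj O (vecMulVec e e) := by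
      simp [conj, hH', Matrix.mul_add, Matrix.add_mul]
    have e2 : conj O (vecMulVec e e) = diagonal fun j : Fin 5 => if j = 0 then 1 else 0 := by
      rw [conj, Matrix.mul_vecMulVec, Matrix.vecMulVec_mul, hOe,
        show e ᵥ* O = O.transpose *ᵥ e from (Matrix.mulVec_transpose O e).symm, hOe]
      ext i j
      cases i using Fin.cases <;> cases j using Fin.cases <;>
        simp [Matrix.vecMulVec, Matrix.diagonal_apply, Fin.succ_ne_zero, (Fin.succ_ne_zero _).symm]
    rw [e2, hHe', ← Matrix.diagonal_smul] at e1
    rw [eq_sub_of_add_eq e1.symm, Matrix.diagonal_sub]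
    congr 1
    funext j
    simp
  have h0 : lam (π 0) = c := by simp [hπ, hla]
  refine ⟨O, fun i => lam (π i.succ), hO1, hOe, ?_, ?_⟩
  · rw [hconj, frameHess]
    congr 1
    funext j
    cases j using Fin.cases with
    | zero => simp [h0]
    | succ k => simp [Fin.succ_ne_zero]
  · have h := trace_conj hO1 H
    rw [hconj, ht, Matrix.trace_diagonal, Fin.sum_univ_succ] at h
    simpa [h0, Fin.succ_ne_zero] using h

end

end Vale.Agent.P098.Reduce
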