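import Vale.Agent.P098.Reduce.Calc
import Vale.Agent.P098.Reduce.Diag
import Vale.Agent.P098.Reduce.Frame
import Vale.Agent.P098.MaxPrinciple

/-!
P098, reduction of the certificate in dimension five, interior: the scalar inequality in
`(L, s, q)` gives the pointwise bound on `y · ∇F - |y|² F + div V` at every point of the cone.
-/

open Filter Matrix
open scoped Topology ContDiff

namespace Vale.Agent.P098.Reduce

noncomputable section

/-- The interior inequality: `L` the eigenvalues of `r D²v` transversal to the ray, `s = v / r`,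
`q` the length of the tangential gradient, `β` the bound. -/
def InteriorIneq (Φ : ℝ × ℝ × ℝ → ℝ) (A : Fin 2 → ℝ × ℝ × ℝ → ℝ) (B : Fin 5 → ℝ × ℝ × ℝ → ℝ)
    (β : ℝ × ℝ × ℝ → ℝ) : Prop :=
  ∀ L : Fin 4 → ℝ, ∑ i, L i = 0 → ∀ s q : ℝ, 0 < s → 0 ≤ q → s ^ 2 + q ^ 2 ≤ 1 →
    PointIneq (coefOf Φ (psum L 2, s, s ^ 2 + q ^ 2))
      (fun m => coefOf (A m) (psum L 2, s, s ^ 2 + q ^ 2))
      (fun j => coefOf (B j) (psum L 2, s, s ^ 2 + q ^ 2)) L s q (β (psum L 2, s, s ^ 2 + q ^ 2))

lemma rot_symm₁ {O : Mat 5} {T : Fin 5 → Mat 5} (h : ∀ k i l, T k i l = T k l i) (a i l : Fin 5) :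
    rot O T a i l = rot O T a l i := by
  have hs : (∑ k, O k a • T k).transpose = ∑ k, O k a • T k := by
    rw [Matrix.transpose_sum]
    refine Finset.sum_congr rfl fun k _ => ?_
    rw [Matrix.transpose_smul]
    congr 1
    ext i l
    exact h k l i
  have : (rot O T a).transpose = rot O T a := by
    rw [rot, conj, Matrix.transpose_mul, Matrix.transpose_mul, hs, Matrix.transpose_transpose,
      Matrix.mul_assoc]
  exact (congrFun (congrFun this i) l).symm

lemma rot_symm₂ {O : Mat 5} {T : Fin 5 → Mat 5} (h : ∀ k i l, T k i l = T i k l) (a i l : Fin 5) :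
    rot O T a i l = rot O T i a l := by
  have e : ∀ a i, rot O T a i l = ∑ k, ∑ p, ∑ q, O k a * O p i * O q l * T k p q := by
    intro a i
    simp only [rot, conj, Matrix.mul_apply, Matrix.transpose_apply, Matrix.sum_apply,
      Matrix.smul_apply, smul_eq_mul, Finset.mul_sum, Finset.sum_mul]
    rw [sum3_rotate (f := fun k p q => O p i * (O k a * T k p q) * O q l) |>.trans ?_]
    exact Finset.sum_congr rfl fun k _ => Finset.sum_congr rfl fun p _ =>
      Finset.sum_congr rfl fun q _ => by ring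
  rw [e, e, Finset.sum_comm]
  exact Finset.sum_congr rfl fun k _ => Finset.sum_congr rfl fun p _ =>
    Finset.sum_congr rfl fun q _ => by rw [h p k q]; ring

variable {u v : Euc 5 → ℝ} {W : Set (Euc 5)} (hu : IsSmoothCone u) (hW : IsOpen W)
  (hsub : closure (posSet u) \ {0} ⊆ W) (hv : ContDiffOn ℝ ∞ v W)
  (hvu : Set.EqOn v u (posSet u))
  (hbd : ∀ x ∈ frontier (posSet u), x ≠ 0 → ‖fderiv ℝ v x‖ = 1)

include hu hW hsub hv hvu in
/-- The jet of a cone at a point of the closed positivity set. -/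
lemma jet_props {x : Euc 5} (hx : x ∈ closure (posSet u)) (hx0 : x ≠ 0) :
    (hessM v x).transpose = hessM v x ∧ (hessM v x).trace = 0 ∧ hessM v x *ᵥ posVec x = 0 ∧
      (∀ k i l, thirdM v x k i l = thirdM v x k l i) ∧ (∀ k i l, thirdM v x k i l = thirdM v x i k l) ∧
      (∀ k, (thirdM v x k).trace = 0) ∧ ∑ k, x k • thirdM v x k = -hessM v x := by
  have h4 : ContDiffAt ℝ 4 v x :=
    (hv.contDiffAt (hW.mem_nhds (hsub ⟨hx, hx0⟩))).of_le (WithTop.coe_le_coe.2 le_top)
  have h3 : ContDiffAt ℝ 3 v x := h4.of_le (by norm_num)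
  refine ⟨hessM_symm h4, laplace_eq_zero hu hW hsub hv hvu hx hx0, ?_,
    fun k i l => (third_symm h3 i l k).2, fun k i l => ?_, fun k => third_trace hu hW hsub hv hvu hx hx0 k, ?_⟩
  · funext i
    rw [Matrix.mulVec, dotProduct, Pi.zero_apply, ← hessian_euler hu hW hsub hv hvu hx hx0 i]
    exact Finset.sum_congr rfl fun j _ => mul_comm _ _
  · show third v i l k x = third v k l i x
    rw [(third_symm h3 i l k).2, (third_symm h3 l i k).1, (third_symm h3 l k i).2]
  · ext i j
    simp only [Matrix.sum_apply, Matrix.smul_apply, Matrix.neg_apply, smul_eq_mul]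
    exact third_euler hu hW hsub hv hvu hx hx0 i j

include hu hW hsub hv hvu hbd in
/-- The pointwise inequality of a certificate, from the interior inequality. -/
theorem cert_le {Φ : ℝ × ℝ × ℝ → ℝ} {A : Fin 2 → ℝ × ℝ × ℝ → ℝ} {B : Fin 5 → ℝ × ℝ × ℝ → ℝ}
    (hΦ : Differentiable ℝ Φ) (hA : ∀ m, Differentiable ℝ (A m)) (hB : ∀ j, Differentiable ℝ (B j))
    {β : ℝ × ℝ × ℝ → ℝ} (h : InteriorIneq Φ A B β) {x : Euc 5} (hx : x ∈ posSet u)
    (y : Fin 5 → ℝ) :
    (∑ i, y i * pd i (certF Φ v) x) - (∑ i, y i ^ 2) * certF Φ v x + ∑ k, pd k (certV A B v k) x ≤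
      β (coefArg v x) / ‖x‖ ^ 5 := by
  have hx0 := ne_zero_of_mem_posSet hu hx
  have hcl := subset_closure hx
  have h4 : ContDiffAt ℝ 4 v x :=
    (hv.contDiffAt (hW.mem_nhds (hsub ⟨hcl, hx0⟩))).of_le (WithTop.coe_le_coe.2 le_top)
  have hharm : (fun y => ∑ i, pd i (pd i v) y) =ᶠ[𝓝 x] fun _ => 0 := by
    filter_upwards [(isOpen_posSet hu).mem_nhds hx] with z hz
    exact laplace_eq_zero hu hW hsub hv hvu (subset_closure hz) (ne_zero_of_mem_posSet hu hz)
  rw [cert_eq_jetExpr h4 hx0 hharm hΦ hA hB]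
  obtain ⟨hs, htr, hHx, hT1, hT2, hTtr, hTe⟩ := jet_props hu hW hsub hv hvu hcl hx0
  set r := ‖x‖ with hr
  have hr0 : 0 < r := norm_pos_iff.2 hx0
  set H := hessM v x
  set T := thirdM v x
  set g := gradVec v x
  set e := r⁻¹ • posVec x with he
  have hxx : posVec x ⬝ᵥ posVec x = r ^ 2 := by
    rw [hr, EuclideanSpace.norm_sq_eq]
    simp [posVec, dotProduct, pow_two]
  have hee : e ⬝ᵥ e = 1 := by
    rw [he, smul_dotProduct, dotProduct_smul, hxx, smul_eq_mul, smul_eq_mul]
    field_simp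
  obtain ⟨O, L, hO, hOe, hconj, hL⟩ := exists_frame (H := r • H) (e := e)
    (by rw [Matrix.transpose_smul, hs]) (by rw [Matrix.trace_smul, htr, smul_zero]) hee
    (by rw [he, Matrix.smul_mulVec, Matrix.mulVec_smul, hHx, smul_zero, smul_zero])
  set t := rot O fun k => r ^ 2 • T k
  have hxO : ∀ k, O k 0 = r⁻¹ * x k := fun k => by
    have h := congrArg (fun w => O *ᵥ w) hOe
    simp only [Matrix.mulVec_mulVec, mul_transpose_self hO, Matrix.one_mulVec] at h
    rw [show (Fin.cons 1 0 : Fin 5 → ℝ) = Pi.single 0 1 by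
      funext j; cases j using Fin.cases <;> simp [Fin.succ_ne_zero]] at h
    have := congrFun h k
    simp [he, posVec, Matrix.col] at this
    exact this.symm
  have hF : Frame L t := by
    refine ⟨hL, rot_symm₁ fun k i l => by simp [hT1 k i l],
      rot_symm₂ fun k i l => by simp [hT2 k i l], fun a => ?_, ?_⟩
    · simp [t, rot, trace_conj hO, Matrix.trace_sum, Matrix.trace_smul, hTtr]
    · show conj O (∑ k, O k 0 • (r ^ 2 • T k)) = -frameHess L
      rw [← hconj, show (∑ k, O k 0 • (r ^ 2 • T k)) = r • ∑ k, x k • T k by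
        rw [Finset.smul_sum]
        refine Finset.sum_congr rfl fun k _ => ?_
        rw [hxO, smul_smul, smul_smul]
        congr 1
        field_simp, hTe, smul_neg]
      simp [conj]
  set g' := O.transpose *ᵥ g
  set q : Fin 4 → ℝ := fun c => g' c.succ
  set sx := v x / r
  have hvx : v x = u x := hvu hx
  have hg0 : g' 0 = sx := by
    show ∑ k, O k 0 * g k = sx
    simp only [hxO, mul_assoc, ← Finset.mul_sum]
    have : ∑ k, x k * g k = v x := by
      rw [hvx, ← fderiv_self hu hsub hv hvu hx, clm_apply_eq_sum (fderiv ℝ v x) x]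
      rfl
    rw [this]
    show r⁻¹ * v x = v x / r
    ring
  have hg' : g' = Fin.cons sx q := by
    funext j; cases j using Fin.cases <;> simp [q, hg0]
  set q₀ := √(∑ c, q c ^ 2)
  have hq₀ : ∑ c, q c ^ 2 = q₀ ^ 2 :=
    (Real.sq_sqrt (Finset.sum_nonneg fun c _ => sq_nonneg _)).symm
  have hP : g ⬝ᵥ g = sx ^ 2 + q₀ ^ 2 := by
    rw [← dot_rot hO g g, show O.transpose *ᵥ g = g' from rfl, hg', dotProduct, Fin.sum_univ_succ, ← hq₀]
    simp [pow_two]
  have hQ : r ^ 2 * (H * H).trace = psum L 2 := by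
    rw [← Frame.trace_frameHess_pow 1, ← hconj, pow_two (conj O (r • H)), conj_mul hO, trace_conj hO]
    simp [Matrix.trace_smul]
    ring
  have harg : coefArg v x = (psum L 2, sx, sx ^ 2 + q₀ ^ 2) := by
    rw [coefArg, hQ, hP]
  have hle : sx ^ 2 + q₀ ^ 2 ≤ 1 := hP ▸ gradSq_le_one hu hW hsub hv hvu hbd (by norm_num) hx
  have key := hF.jetExpr_le (s := sx) hq₀
    (h L hL sx q₀ (div_pos (hvx ▸ hx) hr0) (Real.sqrt_nonneg _) hle) (O.transpose *ᵥ (r • y))
  rw [← hOe, ← hg', ← hconj, show t = rot O fun k => r ^ 2 • T k from rfl, he, jetExpr_rot hO,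
    jetExpr_scale hr0.ne'] at key
  simp only [coefAt, harg]
  rw [le_div_iff₀ (by positivity)]
  linarith

end

end Vale.Agent.P098.Reduce
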