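import Vale.Agent.P098.Reduce.Interior

/-!
P098, reduction of the certificate: for a fixed eigendirection the inequality is quadratic in the
third moment `T` of the three other eigenvalues, so by Bernstein's form it suffices to check the
double node configurations and one middle form.
-/

open Matrix Filter Topology

namespace Vale.Agent.P098.Reduce

noncomputable section

/-- The moments of three numbers with sum `0`, square sum `1` and cube sum `T`. -/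
def mom (T : ℝ) : Fin 6 → ℝ := ![3, 0, 1, T, 1 / 2, 5 / 6 * T]

/-- A block in terms of the moments it depends on, homogenised by `o`. -/
def formOf (Φ : Coef) (A : Fin 2 → Coef) (B : Fin 5 → Coef) (μ s q y o U₁ U₂ U₃ W₁ W₂ P₂ P₃ P₄ P₅ : ℝ) :
    ℝ :=
  let d : Coef → ℝ := fun X => 2 * X.2.1 * U₁ + (X.2.2.1 + 2 * μ * X.2.2.2) * q
  y * d Φ - y ^ 2 * Φ.1 + (d (A 0) * U₁ + (A 0).1 * W₁) + (d (A 1) * U₂ + (A 1).1 * W₂) +
    q * (d (B 0) + μ * d (B 1) + (μ ^ 2 * d (B 2) + (B 2).1 * U₁) +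
      (μ ^ 3 * d (B 3) + (B 3).1 * (U₂ + μ * U₁)) +
      (μ ^ 4 * d (B 4) + (B 4).1 * (U₃ + μ * U₂ + μ ^ 2 * U₁))) +
    o ^ 2 * (9 / 4 * Φ.1 + 4 * (A 0).1 * P₂ + 4 * (A 1).1 * P₃ - 4 * s * (B 0).1 +
      (B 1).1 * P₂ + (B 2).1 * (P₃ - s * P₂) + (B 3).1 * (P₄ - s * P₃) + (B 4).1 * (P₅ - s * P₄))

/-- `∑ (m + r ξ)^j ξ^i` over three numbers with the given moments, for `j + i ≤ 5`. -/
def momPow (m r T : ℝ) : ℕ → ℕ → ℝ
  | 0, i => if h : i < 6 then mom T ⟨i, h⟩ else 0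
  | j + 1, i => m * momPow m r T j i + r * momPow m r T j (i + 1)

/-- The block at the moment `T`: the other eigenvalues are `-μ/3 + r ξ`, the third derivatives
`c₀ + c₁ ξ + c₂ ξ²`. -/
def momBlock (Φ : Coef) (A : Fin 2 → Coef) (B : Fin 5 → Coef) (μ r T s q : ℝ) (c₀ c₁ c₂ y o : ℝ) :
    ℝ :=
  let M := momPow (-μ / 3) r T
  let L : ℕ → ℝ := fun j => c₀ * M j 0 + c₁ * M j 1 + c₂ * M j 2
  let S : ℕ → ℝ := fun j => c₀ ^ 2 * M j 0 + 2 * c₀ * c₁ * M j 1 + (c₁ ^ 2 + 2 * c₀ * c₂) * M j 2 +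
    2 * c₁ * c₂ * M j 3 + c₂ ^ 2 * M j 4
  formOf Φ A B μ s q y o (L 1 - μ * L 0) (L 2 - μ ^ 2 * L 0) (L 3 - μ ^ 3 * L 0)
    (L 0 ^ 2 + 3 * S 0) (2 * μ * L 0 ^ 2 + (4 * S 1 + 2 * μ * S 0))
    (μ ^ 2 + M 2 0) (μ ^ 3 + M 3 0) (μ ^ 4 + M 4 0) (μ ^ 5 + M 5 0)

/-- The middle Bernstein coefficient on `[-h, h]`. -/
def midBlock (Φ : Coef) (A : Fin 2 → Coef) (B : Fin 5 → Coef) (μ r s q : ℝ) (c₀ c₁ c₂ y o : ℝ) : ℝ :=
  2 * momBlock Φ A B μ r 0 s q c₀ c₁ c₂ y o -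
    (momBlock Φ A B μ r (√6)⁻¹ s q c₀ c₁ c₂ y o +
      momBlock Φ A B μ r (-(√6)⁻¹) s q c₀ c₁ c₂ y o) / 2

/-- The inequalities to be checked: the distinct triples, the configurations with a double node
(`r` of either sign), and the middle form. -/
structure TwoPointIneq (Φ : Coef) (A : Fin 2 → Coef) (B : Fin 5 → Coef) (Q s q β : ℝ) : Prop where
  nonneg : 0 ≤ Φ.1
  triple : ∀ l : ℝ, 4 * l ^ 2 ≤ 3 * Q → 6 * (A 0).1 - 4 * l * (A 1).1 ≤ 0
  node : ∀ μ r c₀ c₁ y : ℝ, 4 / 3 * μ ^ 2 + r ^ 2 = Q →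
    momBlock Φ A B μ r (√6)⁻¹ s q c₀ c₁ 0 y 1 ≤ β
  mid : ∀ μ r c₀ c₁ c₂ y : ℝ, 0 ≤ r → 4 / 3 * μ ^ 2 + r ^ 2 = Q →
    midBlock Φ A B μ r s q c₀ c₁ c₂ y 1 ≤ β

variable {Φ : Coef} {A : Fin 2 → Coef} {B : Fin 5 → Coef}

/-- Bernstein's form of the quadratic dependence on the moment. -/
lemma momBlock_bernstein (μ r s q c₀ c₁ c₂ y o l : ℝ) :
    momBlock Φ A B μ r ((2 * l - 1) * (√6)⁻¹) s q c₀ c₁ c₂ y o =
      l ^ 2 * momBlock Φ A B μ r (√6)⁻¹ s q c₀ c₁ c₂ y o +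
        (1 - l) ^ 2 * momBlock Φ A B μ r (-(√6)⁻¹) s q c₀ c₁ c₂ y o +
          2 * l * (1 - l) * midBlock Φ A B μ r s q c₀ c₁ c₂ y o := by
  simp only [midBlock, momBlock, formOf, momPow, mom]
  norm_num
  ring

lemma momBlock_reflect (μ r T s q c₀ c₁ c₂ y o : ℝ) :
    momBlock Φ A B μ r (-T) s q c₀ c₁ c₂ y o = momBlock Φ A B μ (-r) T s q c₀ (-c₁) c₂ y o := by
  simp only [momBlock, formOf, momPow, mom]
  norm_num
  ring

/-- Three numbers with sum `0` and square sum `1`. -/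
structure Nodes (ξ : Fin 3 → ℝ) : Prop where
  sum : ξ 0 + ξ 1 + ξ 2 = 0
  sq : ξ 0 ^ 2 + ξ 1 ^ 2 + ξ 2 ^ 2 = 1

namespace Nodes

variable {ξ : Fin 3 → ℝ} (hξ : Nodes ξ)

include hξ

lemma moments : ∑ a, ξ a = 0 ∧ ∑ a, ξ a ^ 2 = 1 ∧ ∑ a, ξ a ^ 4 = 1 / 2 ∧
    ∑ a, ξ a ^ 5 = 5 / 6 * ∑ a, ξ a ^ 3 := by
  have h2 : ξ 2 = -(ξ 0 + ξ 1) := by linarith [hξ.sum]
  have h := hξ.sq
  simp only [Fin.sum_univ_three, h2] at h ⊢
  refine ⟨by ring, h, ?_, ?_⟩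
  · linear_combination (((ξ 0) ^ 2 + (ξ 1) ^ 2 + (ξ 0 + ξ 1) ^ 2) / 2 + 1 / 2) * h
  · linear_combination (5 / 6 * ((ξ 0) ^ 3 + (ξ 1) ^ 3 + (-(ξ 0 + ξ 1)) ^ 3)) * h

lemma cube_sq_le : (∑ a, ξ a ^ 3) ^ 2 ≤ 1 / 6 := by
  have h2 : ξ 2 = -(ξ 0 + ξ 1) := by linarith [hξ.sum]
  have h := hξ.sq
  simp only [Fin.sum_univ_three, h2] at h ⊢
  have e : 2 * ((ξ 0 - ξ 1) * (ξ 0 + 2 * ξ 1) * (2 * ξ 0 + ξ 1)) ^ 2 =
      (ξ 0 ^ 2 + ξ 1 ^ 2 + (-(ξ 0 + ξ 1)) ^ 2) ^ 3 -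
        6 * (ξ 0 ^ 3 + ξ 1 ^ 3 + (-(ξ 0 + ξ 1)) ^ 3) ^ 2 := by ring
  rw [h] at e
  nlinarith [sq_nonneg ((ξ 0 - ξ 1) * (ξ 0 + 2 * ξ 1) * (2 * ξ 0 + ξ 1))]

/-- A block as a function of the moment. -/
lemma momBlock_eq {L : Fin 4 → ℝ} {u : Fin 4 → ℝ} {c : Fin 4} {μ r c₀ c₁ c₂ : ℝ}
    (hc : L c = μ) (hL : ∀ a, L (c.succAbove a) = -μ / 3 + r * ξ a) (hu : ∑ i, u i = 0)
    (hua : ∀ a, u (c.succAbove a) = c₀ + c₁ * ξ a + c₂ * ξ a ^ 2) (s q y : ℝ) :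
    block Φ A B L c u y q + constPart Φ A B L s =
      momBlock Φ A B μ r (∑ a, ξ a ^ 3) s q c₀ c₁ c₂ y 1 := by
  obtain ⟨m1, m2, m4, m5⟩ := hξ.moments
  have hM : ∀ j i : ℕ, j + i ≤ 5 →
      ∑ a, L (c.succAbove a) ^ j * ξ a ^ i = momPow (-μ / 3) r (∑ a, ξ a ^ 3) j i := by
    intro j
    induction j with
    | zero =>
      intro i hi
      have : i ≤ 5 := by omega
      interval_cases i <;> simp [momPow, mom, m1, m2, m4, m5]
    | succ j ih =>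
      intro i hi
      rw [momPow, ← ih i (by omega), ← ih (i + 1) (by omega), Finset.mul_sum, Finset.mul_sum,
        ← Finset.sum_add_distrib]
      exact Finset.sum_congr rfl fun a _ => by rw [pow_succ, pow_succ, hL a]; ring
  set M := momPow (-μ / 3) r (∑ a, ξ a ^ 3)
  set Lw : ℕ → ℝ := fun j => c₀ * M j 0 + c₁ * M j 1 + c₂ * M j 2
  set Sw : ℕ → ℝ := fun j => c₀ ^ 2 * M j 0 + 2 * c₀ * c₁ * M j 1 +
    (c₁ ^ 2 + 2 * c₀ * c₂) * M j 2 + 2 * c₁ * c₂ * M j 3 + c₂ ^ 2 * M j 4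
  have hLw : ∀ j, j ≤ 3 → ∑ a, L (c.succAbove a) ^ j * u (c.succAbove a) = Lw j := fun j hj => by
    simp only [Lw, ← hM j 0 (by omega), ← hM j 1 (by omega), ← hM j 2 (by omega), Finset.mul_sum,
      ← Finset.sum_add_distrib]
    exact Finset.sum_congr rfl fun a _ => by rw [hua a]; ring
  have hSw : ∀ j, j ≤ 1 → ∑ a, L (c.succAbove a) ^ j * u (c.succAbove a) ^ 2 = Sw j := fun j hj => by
    simp only [Sw, ← hM j 0 (by omega), ← hM j 1 (by omega), ← hM j 2 (by omega),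
      ← hM j 3 (by omega), ← hM j 4 (by omega), Finset.mul_sum, ← Finset.sum_add_distrib]
    exact Finset.sum_congr rfl fun a _ => by rw [hua a]; ring
  have huc : u c = -Lw 0 := by
    have h := hLw 0 (by norm_num)
    rw [Fin.sum_univ_succAbove u c] at hu
    simp only [pow_zero, one_mul] at h
    linarith
  have hU : ∀ j, j ≤ 3 → usum L u j = Lw j - μ ^ j * Lw 0 := fun j hj => by
    rw [usum, Fin.sum_univ_succAbove _ c, hLw j hj, hc, huc]; ring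
  have hP : ∀ j, j ≤ 5 → psum L j = μ ^ j + M j 0 := fun j hj => by
    rw [psum, Fin.sum_univ_succAbove _ c, hc, ← hM j 0 (by omega)]
    simp
  have hW1 : weightSum L u 1 c = Lw 0 ^ 2 + 3 * Sw 0 := by
    rw [weightSum, Fin.sum_univ_succAbove _ c, ← hSw 0 (by norm_num), huc, if_pos rfl, Finset.mul_sum]
    simp only [Fin.succAbove_ne, if_false, pow_zero, one_mul, hsum, zero_mul, zero_add, neg_sq]
    exact congrArg _ (Finset.sum_congr rfl fun a _ => by ring)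
  have hW2 : weightSum L u 2 c = 2 * μ * Lw 0 ^ 2 + (4 * Sw 1 + 2 * μ * Sw 0) := by
    rw [weightSum, Fin.sum_univ_succAbove _ c, ← hSw 0 (by norm_num), ← hSw 1 (by norm_num), huc,
      if_pos rfl, hc, Finset.mul_sum, Finset.mul_sum, ← Finset.sum_add_distrib]
    simp only [Fin.succAbove_ne, if_false, hsum, zero_mul, zero_add, neg_sq, pow_one, pow_zero,
      one_mul]
    refine congrArg₂ _ (by ring) (Finset.sum_congr rfl fun a _ => by ring)
  have hH : ∀ j : ℕ, ∑ i, hsum (j + 1) (L i) (L c) * u i =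
      μ * (∑ i, hsum j (L i) (L c) * u i) + usum L u j := fun j => by
    simp only [usum, Finset.mul_sum, ← Finset.sum_add_distrib]
    exact Finset.sum_congr rfl fun i _ => by rw [hsum, hc]; ring
  have hH0 : ∑ i, hsum 0 (L i) (L c) * u i = 0 := by simp [hsum]
  have hU0 : usum L u 0 = 0 := by simp [usum, hu]
  have hH1 : ∑ i, hsum 1 (L i) (L c) * u i = 0 := by rw [hH 0, hH0, hU0]; ring
  have hH2 : ∑ i, hsum 2 (L i) (L c) * u i = usum L u 1 := by rw [hH 1, hH1]; ring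
  have hH3 : ∑ i, hsum 3 (L i) (L c) * u i = usum L u 2 + μ * usum L u 1 := by
    rw [hH 2, hH2]; ring
  have hH4 : ∑ i, hsum 4 (L i) (L c) * u i =
      usum L u 3 + μ * usum L u 2 + μ ^ 2 * usum L u 1 := by rw [hH 3, hH3]; ring
  simp only [block, constPart, dCoef, momBlock, formOf, Fin.sum_univ_two, Fin.sum_univ_five,
    Fin.sum_univ_four (f := fun j : Fin 4 => (B j.succ).1 * (psum L ((j : ℕ) + 2) - s * psum L ((j : ℕ) + 1))),
    show (0 : Fin 4).succ = (1 : Fin 5) from rfl, show (1 : Fin 4).succ = (2 : Fin 5) from rfl,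
    show (2 : Fin 4).succ = (3 : Fin 5) from rfl, show (3 : Fin 4).succ = (4 : Fin 5) from rfl,
    show ((3 : Fin 4) : ℕ) = 3 from rfl, show ((3 : Fin 5) : ℕ) = 3 from rfl,
    show ((4 : Fin 5) : ℕ) = 4 from rfl, Fin.val_zero, Fin.val_one, Fin.val_two, hc]
  norm_num only [hc] at hH0 hH1 hH2 hH3 hH4 ⊢
  rw [hH0, hH1, hH2, hH3, hH4, hW1, hW2, hU 1 (by norm_num), hU 2 (by norm_num),
    hU 3 (by norm_num), show psum L 1 = 0 by
      simp only [psum, pow_one]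
      have := hP 1 (by norm_num); simp [psum, M, momPow, mom] at this; linarith,
    hP 2 (by norm_num), hP 3 (by norm_num), hP 4 (by norm_num), hP 5 (by norm_num)]
  simp only [Lw, Sw, M]
  ring

end Nodes

/-- The double node with cube sum `(√6)⁻¹`. -/
lemma momBlock_node (μ r s q c₀ c₁ c₂ y : ℝ) :
    momBlock Φ A B μ r (√6)⁻¹ s q c₀ c₁ c₂ y 1 =
      momBlock Φ A B μ r (√6)⁻¹ s q (c₀ + c₂ / 3) (c₁ + c₂ * (√6)⁻¹) 0 y 1 := by
  set h := (√6 : ℝ)⁻¹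
  have h6 : h ^ 2 = 1 / 6 := by
    simp only [h, inv_pow, Real.sq_sqrt (by norm_num : (0 : ℝ) ≤ 6)]; norm_num
  set ξ : Fin 3 → ℝ := ![2 * h, -h, -h]
  have hξ : Nodes ξ := ⟨by simp [ξ]; ring, by simp [ξ]; linarith [mul_pow (2 : ℝ) h 2]⟩
  have hT : ∑ a, ξ a ^ 3 = h := by
    simp [ξ, Fin.sum_univ_three]; linear_combination (6 * h) * h6
  set L : Fin 4 → ℝ := Fin.cons μ fun a => -μ / 3 + r * ξ a
  set w : Fin 3 → ℝ := fun a => c₀ + c₁ * ξ a + c₂ * ξ a ^ 2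
  set u : Fin 4 → ℝ := Fin.cons (-∑ a, w a) w
  have hu : ∑ i, u i = 0 := by simp [u, Fin.sum_univ_succ]
  have e1 := hξ.momBlock_eq (Φ := Φ) (A := A) (B := B) (L := L) (u := u) (c := 0) (μ := μ) (r := r)
    (c₀ := c₀) (c₁ := c₁) (c₂ := c₂) rfl (fun a => by simp [L]) hu (fun a => by simp [u, w]) s q y
  have e2 := hξ.momBlock_eq (Φ := Φ) (A := A) (B := B) (L := L) (u := u) (c := 0) (μ := μ) (r := r)
    (c₀ := c₀ + c₂ / 3) (c₁ := c₁ + c₂ * h) (c₂ := 0) rfl (fun a => by simp [L]) hu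
    (fun a => by
      rw [show u (Fin.succAbove 0 a) = w a by simp [u]]
      fin_cases a <;> simp [w, ξ] <;> linear_combination (2 * c₂) * h6) s q y
  rw [hT] at e1 e2
  exact e1.symm.trans e2

/-- The two-point inequalities give the inequality of a block at distinct nodes. -/
lemma block_le_of_distinct {Q s q β : ℝ} (h : TwoPointIneq Φ A B Q s q β) {ξ : Fin 3 → ℝ}
    (hξ : Nodes ξ) (h01 : ξ 0 ≠ ξ 1) (h02 : ξ 0 ≠ ξ 2) (h12 : ξ 1 ≠ ξ 2) {L u : Fin 4 → ℝ}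
    {c : Fin 4} {μ r : ℝ} (hr : 0 ≤ r) (hQ : 4 / 3 * μ ^ 2 + r ^ 2 = Q) (hc : L c = μ)
    (hL : ∀ a, L (c.succAbove a) = -μ / 3 + r * ξ a) (hu : ∑ i, u i = 0) (y : ℝ) :
    block Φ A B L c u y q + constPart Φ A B L s ≤ β := by
  set v := fun a => u (c.succAbove a)
  set a₂ := (v 0 - v 1) / ((ξ 0 - ξ 1) * (ξ 0 - ξ 2)) - (v 1 - v 2) / ((ξ 1 - ξ 2) * (ξ 0 - ξ 2))
  set a₁ := (v 0 - v 1) / (ξ 0 - ξ 1) - a₂ * (ξ 0 + ξ 1)
  set a₀ := v 0 - a₁ * ξ 0 - a₂ * ξ 0 ^ 2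
  have d01 := sub_ne_zero.2 h01
  have d02 := sub_ne_zero.2 h02
  have d12 := sub_ne_zero.2 h12
  have k0 : v 0 = a₀ + a₁ * ξ 0 + a₂ * ξ 0 ^ 2 := by simp only [a₀]; ring
  have k1 : v 1 = a₀ + a₁ * ξ 1 + a₂ * ξ 1 ^ 2 := by simp only [a₀, a₁]; field_simp; ring
  have k2 : v 2 = a₀ + a₁ * ξ 2 + a₂ * ξ 2 ^ 2 := by simp only [a₀, a₁, a₂]; field_simp; ring
  have hua : ∀ a, u (c.succAbove a) = a₀ + a₁ * ξ a + a₂ * ξ a ^ 2 := fun a => by
    fin_cases a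
    exacts [k0, k1, k2]
  rw [hξ.momBlock_eq hc hL hu hua]
  have h6 : (0 : ℝ) < √6 := by positivity
  set T := ∑ a, ξ a ^ 3
  have hT : |T * √6| ≤ 1 := by
    rw [abs_le_one_iff_mul_self_le_one]
    have := hξ.cube_sq_le
    nlinarith [Real.mul_self_sqrt (by norm_num : (0 : ℝ) ≤ 6)]
  obtain ⟨hT1, hT2⟩ := abs_le.1 hT
  set l := (1 + T * √6) / 2
  have e : T = (2 * l - 1) * (√6)⁻¹ := by simp only [l]; field_simp; ring
  rw [e, momBlock_bernstein]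
  have hp : momBlock Φ A B μ r (√6)⁻¹ s q a₀ a₁ a₂ y 1 ≤ β :=
    (momBlock_node μ r s q a₀ a₁ a₂ y).le.trans (h.node μ r _ _ y hQ)
  have hn : momBlock Φ A B μ r (-(√6)⁻¹) s q a₀ a₁ a₂ y 1 ≤ β := by
    rw [momBlock_reflect, momBlock_node]
    exact h.node μ (-r) _ _ y (by rw [neg_sq]; exact hQ)
  have l0 : 0 ≤ l := by simp only [l]; linarith
  have l1 : 0 ≤ 1 - l := by simp only [l]; linarith
  have k1 := mul_le_mul_of_nonneg_left hp (sq_nonneg l)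
  have k2 := mul_le_mul_of_nonneg_left hn (sq_nonneg (1 - l))
  have k3 := mul_le_mul_of_nonneg_left (h.mid μ r a₀ a₁ a₂ y hr hQ) (mul_nonneg l0 l1)
  linarith

lemma continuous_hsum (j : ℕ) (i k : Fin 4) :
    Continuous fun L : Fin 4 → ℝ => hsum j (L i) (L k) := by
  induction j with
  | zero => simp only [hsum]; fun_prop
  | succ j ih => simp only [hsum]; fun_prop

lemma continuous_block (c : Fin 4) (u : Fin 4 → ℝ) (s q y : ℝ) :
    Continuous fun L : Fin 4 → ℝ => block Φ A B L c u y q + constPart Φ A B L s := by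
  have hh := fun j i => continuous_hsum j i c
  have hw : ∀ m, Continuous fun L : Fin 4 → ℝ => weightSum L u m c := fun m => by
    refine continuous_finsetSum _ fun i _ => ?_
    have := continuous_hsum m c c; have := continuous_hsum m i i; have := hh m i
    split_ifs <;> fun_prop
  have hu : ∀ m, Continuous fun L : Fin 4 → ℝ => usum L u m := fun m => by
    unfold usum; fun_prop
  have hp : ∀ m, Continuous fun L : Fin 4 → ℝ => psum L m := fun m => by unfold psum; fun_prop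
  unfold block constPart dCoef
  fun_prop

lemma exists_nodes {m μ r : ℝ} {v : Fin 3 → ℝ} (hm : m = -μ / 3) (h1 : v 0 + v 1 + v 2 = -μ)
    (h2 : v 0 ^ 2 + v 1 ^ 2 + v 2 ^ 2 = r ^ 2 + μ ^ 2 / 3) :
    ∃ ξ, Nodes ξ ∧ ∀ a, v a = m + r * ξ a := by
  rcases eq_or_ne r 0 with h0 | h0
  · have hz : (v 0 - m) ^ 2 + (v 1 - m) ^ 2 + (v 2 - m) ^ 2 = 0 := by
      subst hm h0
      linear_combination h2 + (2 * μ / 3) * h1
    have z : ∀ a, v a = m := by
      have a0 := sq_nonneg (v 0 - m); have a1 := sq_nonneg (v 1 - m)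
      have a2 := sq_nonneg (v 2 - m)
      have z : ∀ x : ℝ, x ^ 2 ≤ 0 → x = 0 := fun x hx =>
        (pow_eq_zero_iff two_ne_zero).1 (le_antisymm hx (sq_nonneg x))
      have k0 : v 0 = m := sub_eq_zero.1 (z _ (by linarith))
      have k1 : v 1 = m := sub_eq_zero.1 (z _ (by linarith))
      have k2 : v 2 = m := sub_eq_zero.1 (z _ (by linarith))
      intro a
      fin_cases a
      exacts [k0, k1, k2]
    refine ⟨![√(1 / 2), -√(1 / 2), 0], ⟨by simp, ?_⟩, fun a => by rw [z a, h0]; ring⟩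
    simp [Real.sq_sqrt]
    norm_num
  · subst hm
    refine ⟨fun a => (v a + μ / 3) / r, ⟨?_, ?_⟩, fun a => by field_simp; ring⟩
    · rw [← add_div, ← add_div, div_eq_zero_iff]; left; linarith
    · rw [div_pow, div_pow, div_pow, ← add_div, ← add_div, div_eq_one_iff_eq (pow_ne_zero 2 h0)]
      linear_combination h2 + (2 * μ / 3) * h1

lemma Nodes.exists_distinct_path {ξ : Fin 3 → ℝ} (hξ : Nodes ξ) :
    ∃ p : ℝ → Fin 3 → ℝ, Continuous p ∧ p 0 = ξ ∧ (∀ t, Nodes (p t)) ∧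
      ∀ᶠ t in 𝓝[>] (0 : ℝ), p t 0 ≠ p t 1 ∧ p t 0 ≠ p t 2 ∧ p t 1 ≠ p t 2 := by
  set w := (√3 : ℝ)⁻¹
  have hw : w ≠ 0 := inv_ne_zero (by positivity)
  have hw2 : w ^ 2 = 1 / 3 := by simp [w, inv_pow, Real.sq_sqrt]
  set η : Fin 3 → ℝ := ![(ξ 1 - ξ 2) * w, (ξ 2 - ξ 0) * w, (ξ 0 - ξ 1) * w]
  refine ⟨fun t a => (ξ a + t * η a) / √(1 + t ^ 2), ?_, by funext a; simp, fun t => ⟨?_, ?_⟩, ?_⟩
  · exact continuous_pi fun a => Continuous.div (by fun_prop) (by fun_prop) fun t => by positivity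
  · rw [← add_div, ← add_div, div_eq_zero_iff]
    left
    simp [η]
    linear_combination hξ.sum
  · simp only [div_pow, Real.sq_sqrt (by positivity : (0 : ℝ) ≤ 1 + t ^ 2), ← add_div]
    rw [div_eq_one_iff_eq (by positivity)]
    simp [η]
    linear_combination (1 + 3 * t ^ 2 * w ^ 2) * hξ.sq - t ^ 2 * w ^ 2 * (ξ 0 + ξ 1 + ξ 2) * hξ.sum +
      3 * t ^ 2 * hw2
  · have key : ∀ d e : ℝ, (d ≠ 0 ∨ e ≠ 0) → ∀ᶠ t in 𝓝[>] (0 : ℝ), d + t * e ≠ 0 := by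
      intro d e h
      by_cases hd : d = 0
      · filter_upwards [self_mem_nhdsWithin] with t (ht : 0 < t)
        rw [hd, zero_add]
        exact mul_ne_zero ht.ne' (h.resolve_left (not_not.2 hd))
      · have hc : ContinuousAt (fun t : ℝ => d + t * e) 0 := by fun_prop
        exact nhdsWithin_le_nhds (hc.eventually_ne (by simpa using hd))
    have h2 : ξ 2 = -(ξ 0 + ξ 1) := by linarith [hξ.sum]
    have hs := hξ.sq
    have ne : ∀ a b : Fin 3, a < b → ξ a - ξ b ≠ 0 ∨ η a - η b ≠ 0 := by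
      intro a b hab
      by_contra hh
      simp only [not_or, not_not] at hh
      obtain ⟨hx, hy⟩ := hh
      fin_cases a <;> fin_cases b <;> simp at hab <;> simp [η, ← sub_mul, hw] at hx hy <;>
        rw [h2] at hs hy <;> (try rw [h2] at hx) <;> nlinarith
    filter_upwards [key _ _ (ne 0 1 (by decide)), key _ _ (ne 0 2 (by decide)),
      key _ _ (ne 1 2 (by decide))] with t t01 t02 t12
    simp only [ne_eq, div_left_inj' (show √(1 + t ^ 2) ≠ 0 by positivity)]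
    exact ⟨fun e => t01 (by linear_combination e), fun e => t02 (by linear_combination e),
      fun e => t12 (by linear_combination e)⟩

/-- The two-point inequalities give the scalar inequality of a frame. -/
theorem TwoPointIneq.pointIneq {L : Fin 4 → ℝ} {s q β : ℝ} (hsum : ∑ i, L i = 0)
    (h : TwoPointIneq Φ A B (psum L 2) s q β) : PointIneq Φ A B L s q β := by
  have hrest : ∀ c : Fin 4,
      L (c.succAbove 0) + L (c.succAbove 1) + L (c.succAbove 2) = -L c ∧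
      L (c.succAbove 0) ^ 2 + L (c.succAbove 1) ^ 2 + L (c.succAbove 2) ^ 2 =
        psum L 2 - L c ^ 2 := fun c => by
    rw [Fin.sum_univ_succAbove _ c, Fin.sum_univ_three] at hsum
    rw [psum, Fin.sum_univ_succAbove _ c, Fin.sum_univ_three]
    constructor <;> linarith
  have hQ : ∀ c : Fin 4, 0 ≤ psum L 2 - 4 / 3 * L c ^ 2 := fun c => by
    obtain ⟨e1, e2⟩ := hrest c
    have e1' := congrArg (· ^ 2) e1
    simp only [neg_sq] at e1'
    linarith [sq_nonneg (L (c.succAbove 0) - L (c.succAbove 1)),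
      sq_nonneg (L (c.succAbove 0) - L (c.succAbove 2)),
      sq_nonneg (L (c.succAbove 1) - L (c.succAbove 2))]
  refine ⟨h.nonneg, fun d => h.triple _ (by linarith [hQ d]), fun c u y hu => ?_⟩
  obtain ⟨e1, e2⟩ := hrest c
  set r := √(psum L 2 - 4 / 3 * L c ^ 2)
  have hr : r ^ 2 = psum L 2 - 4 / 3 * L c ^ 2 := Real.sq_sqrt (hQ c)
  obtain ⟨ξ, hξ, hLξ⟩ := exists_nodes (m := -L c / 3) (r := r) (v := fun a => L (c.succAbove a))
    rfl e1 (by linarith)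
  obtain ⟨p, hp, hp0, hpn, hpd⟩ := hξ.exists_distinct_path
  set La : ℝ → Fin 4 → ℝ := fun t => c.insertNth (L c) fun a => -L c / 3 + r * p t a
  have hLc : Continuous La :=
    Continuous.finInsertNth c continuous_const (continuous_pi fun a => by fun_prop)
  have h0 : La 0 = L := by
    funext i
    cases i using Fin.succAboveCases c with
    | x => simp [La]
    | p a => simp [La, hp0, hLξ a]
  have hlim : ∀ᶠ t in 𝓝[>] (0 : ℝ),
      block Φ A B (La t) c u y q + constPart Φ A B (La t) s ≤ β := by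
    filter_upwards [hpd] with t ht
    exact block_le_of_distinct h (hpn t) ht.1 ht.2.1 ht.2.2 (Real.sqrt_nonneg _) (by linarith)
      (Fin.insertNth_apply_same c _ _) (fun a => Fin.insertNth_apply_succAbove c _ _ a) hu y
  have hf := ((continuous_block (Φ := Φ) (A := A) (B := B) c u s q y).comp hLc).tendsto 0
  have := le_of_tendsto (hf.mono_left nhdsWithin_le_nhds) hlim
  rw [Function.comp_apply, h0] at this
  exact this

/-- The interior inequality from the two-point inequalities. -/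
theorem interiorIneq_of_twoPoint {Φ : ℝ × ℝ × ℝ → ℝ} {A : Fin 2 → ℝ × ℝ × ℝ → ℝ}
    {B : Fin 5 → ℝ × ℝ × ℝ → ℝ} {β : ℝ × ℝ × ℝ → ℝ}
    (h : ∀ Q s q : ℝ, 0 ≤ Q → 0 < s → 0 ≤ q → s ^ 2 + q ^ 2 ≤ 1 →
      TwoPointIneq (coefOf Φ (Q, s, s ^ 2 + q ^ 2)) (fun m => coefOf (A m) (Q, s, s ^ 2 + q ^ 2))
        (fun j => coefOf (B j) (Q, s, s ^ 2 + q ^ 2)) Q s q (β (Q, s, s ^ 2 + q ^ 2))) :
    InteriorIneq Φ A B β := fun L hL s q hs hq hle =>
  (h _ s q (Finset.sum_nonneg fun i _ => sq_nonneg _) hs hq hle).pointIneq hL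

end

end Vale.Agent.P098.Reduce
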