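import Vale.Agent.P098.Reduce.Edge
import Vale.Agent.P098.Reduce.TwoPoint

/-!
P098, reduction of the certificate on the free boundary: the flux is affine in the third moment of
the three tangential eigenvalues, so the double node configurations suffice; and the triples reduce
to their two extreme eigenvalues.
-/

open Matrix Filter Topology

namespace Vale.Agent.P098.Reduce

noncomputable section

/-- The flux in terms of the values of the coefficients and of the moments: `ν` the normal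
eigenvalue, the others `-ν/3 + r ξ` with cube sum `T`, `Q` the square sum. -/
def edgeForm (Φ : ℝ) (A : Fin 2 → ℝ) (B : Fin 5 → ℝ) (Q ν r T : ℝ) : ℝ :=
  let P : ℕ → ℝ := fun k => ν ^ k + momPow (-ν / 3) r T k 0
  Φ * ν + (A 0 * (ν * P 2 - P 3 + ν * Q) + A 1 * (ν * P 3 - P 4 + ν ^ 2 * Q)) +
    (B 0 + B 1 * ν + B 2 * ν ^ 2 + B 3 * ν ^ 3 + B 4 * ν ^ 4)

lemma edgeForm_affine (Φ : ℝ) (A : Fin 2 → ℝ) (B : Fin 5 → ℝ) (Q ν r l : ℝ) :
    edgeForm Φ A B Q ν r ((2 * l - 1) * (√6)⁻¹) =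
      l * edgeForm Φ A B Q ν r (√6)⁻¹ + (1 - l) * edgeForm Φ A B Q ν r (-(√6)⁻¹) := by
  simp only [edgeForm, momPow, mom]
  norm_num
  ring

lemma edgeForm_reflect (Φ : ℝ) (A : Fin 2 → ℝ) (B : Fin 5 → ℝ) (Q ν r T : ℝ) :
    edgeForm Φ A B Q ν r (-T) = edgeForm Φ A B Q ν (-r) T := by
  simp only [edgeForm, momPow, mom]
  norm_num
  ring

lemma Nodes.pow_moments {ξ : Fin 3 → ℝ} (hξ : Nodes ξ) {v : Fin 3 → ℝ} {m r : ℝ}
    (hv : ∀ a, v a = m + r * ξ a) : ∀ j i : ℕ, j + i ≤ 5 →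
      ∑ a, v a ^ j * ξ a ^ i = momPow m r (∑ a, ξ a ^ 3) j i := by
  obtain ⟨m1, m2, m4, m5⟩ := hξ.moments
  intro j
  induction j with
  | zero =>
    intro i hi
    have : i ≤ 5 := by omega
    interval_cases i <;> simp [momPow, mom, m1, m2, m4, m5]
  | succ j ih =>
    intro i hi
    rw [momPow, ← ih i (by omega), ← ih (i + 1) (by omega), Finset.mul_sum, Finset.mul_sum,
      ← Finset.sum_add_distrib]
    exact Finset.sum_congr rfl fun a _ => by rw [pow_succ, pow_succ, hv a]; ring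

/-- The boundary inequality from the configurations with a double node. -/
theorem boundaryIneq_of_twoPoint {Φ : ℝ × ℝ × ℝ → ℝ} {A : Fin 2 → ℝ × ℝ × ℝ → ℝ}
    {B : Fin 5 → ℝ × ℝ × ℝ → ℝ} {γ : ℝ}
    (h : ∀ Q ν r : ℝ, ν ≤ 0 → 4 / 3 * ν ^ 2 + r ^ 2 = Q →
      edgeForm (Φ (Q, 0, 1)) (fun m => A m (Q, 0, 1)) (fun j => B j (Q, 0, 1)) Q ν r (√6)⁻¹ ≤ γ) :
    BoundaryIneq Φ A B γ := by
  intro L hL c hc
  have hsum := hL
  rw [Fin.sum_univ_succAbove _ c, Fin.sum_univ_three] at hsum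
  have hsq : L (c.succAbove 0) ^ 2 + L (c.succAbove 1) ^ 2 + L (c.succAbove 2) ^ 2 =
      psum L 2 - L c ^ 2 := by
    rw [psum, Fin.sum_univ_succAbove _ c, Fin.sum_univ_three]; ring
  have hQ : 0 ≤ psum L 2 - 4 / 3 * L c ^ 2 := by
    have e1 : (L (c.succAbove 0) + L (c.succAbove 1) + L (c.succAbove 2)) ^ 2 = L c ^ 2 := by
      rw [show L (c.succAbove 0) + L (c.succAbove 1) + L (c.succAbove 2) = -L c by linarith, neg_sq]
    linarith [sq_nonneg (L (c.succAbove 0) - L (c.succAbove 1)),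
      sq_nonneg (L (c.succAbove 0) - L (c.succAbove 2)),
      sq_nonneg (L (c.succAbove 1) - L (c.succAbove 2))]
  set r := √(psum L 2 - 4 / 3 * L c ^ 2)
  have hr : r ^ 2 = psum L 2 - 4 / 3 * L c ^ 2 := Real.sq_sqrt hQ
  obtain ⟨ξ, hξ, hLξ⟩ := exists_nodes (m := -L c / 3) (r := r) (v := fun a => L (c.succAbove a))
    rfl (show L (c.succAbove 0) + L (c.succAbove 1) + L (c.succAbove 2) = -L c by linarith)
    (by linarith)
  set T := ∑ a, ξ a ^ 3
  have hP : ∀ j, j ≤ 5 → psum L j = L c ^ j + momPow (-L c / 3) r T j 0 := fun j hj => by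
    rw [psum, Fin.sum_univ_succAbove _ c,
      ← hξ.pow_moments (v := fun a => L (c.succAbove a)) hLξ j 0 (by omega)]
    simp
  have h6 : (0 : ℝ) < √6 := by positivity
  have hT : |T * √6| ≤ 1 := by
    rw [abs_le_one_iff_mul_self_le_one]
    have := hξ.cube_sq_le
    nlinarith [Real.mul_self_sqrt (by norm_num : (0 : ℝ) ≤ 6)]
  obtain ⟨hT1, hT2⟩ := abs_le.1 hT
  set l := (1 + T * √6) / 2
  have hl : T = (2 * l - 1) * (√6)⁻¹ := by simp only [l]; field_simp; ring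
  have k1 := h (psum L 2) (L c) r hc (by linarith)
  have k2 := h (psum L 2) (L c) (-r) hc (by rw [neg_sq]; linarith)
  rw [← edgeForm_reflect] at k2
  have key := add_le_add (mul_le_mul_of_nonneg_left k1 (show 0 ≤ l by simp only [l]; linarith))
    (mul_le_mul_of_nonneg_left k2 (show 0 ≤ 1 - l by simp only [l]; linarith))
  rw [← edgeForm_affine, ← hl] at key
  refine le_trans (le_of_eq ?_) (key.trans_eq (by ring))
  simp only [edgeForm, ← hP 2 (by norm_num), ← hP 3 (by norm_num), ← hP 4 (by norm_num),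
    Fin.sum_univ_two, Fin.sum_univ_five]
  norm_num

/-- The triples from their two extreme eigenvalues. -/
lemma triple_of_extremes {A₀ A₁ Q : ℝ} (h₁ : 6 * A₀ - 2 * √(3 * Q) * A₁ ≤ 0)
    (h₂ : 6 * A₀ + 2 * √(3 * Q) * A₁ ≤ 0) {l : ℝ} (hl : 4 * l ^ 2 ≤ 3 * Q) :
    6 * A₀ - 4 * l * A₁ ≤ 0 := by
  have h : |2 * l| ≤ √(3 * Q) := Real.abs_le_sqrt (by linarith)
  obtain ⟨ha, hb⟩ := abs_le.1 h
  rcases le_total 0 A₁ with hA | hA <;>
    nlinarith [mul_le_mul_of_nonneg_left ha (abs_nonneg A₁), mul_le_mul_of_nonneg_left hb (abs_nonneg A₁),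
      abs_of_nonneg (a := A₁), abs_of_nonpos (a := A₁)]

/-- The inequalities to be checked, with the triples at their extremes. -/
theorem twoPointIneq_mk {Φ : Coef} {A : Fin 2 → Coef} {B : Fin 5 → Coef} {Q s q β : ℝ}
    (nonneg : 0 ≤ Φ.1)
    (h₁ : 6 * (A 0).1 - 2 * √(3 * Q) * (A 1).1 ≤ 0) (h₂ : 6 * (A 0).1 + 2 * √(3 * Q) * (A 1).1 ≤ 0)
    (node : ∀ μ r c₀ c₁ y : ℝ, 4 / 3 * μ ^ 2 + r ^ 2 = Q →
      momBlock Φ A B μ r (√6)⁻¹ s q c₀ c₁ 0 y 1 ≤ β)
    (mid : ∀ μ r c₀ c₁ c₂ y : ℝ, 0 ≤ r → 4 / 3 * μ ^ 2 + r ^ 2 = Q →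
      midBlock Φ A B μ r s q c₀ c₁ c₂ y 1 ≤ β) :
    TwoPointIneq Φ A B Q s q β :=
  ⟨nonneg, fun _ hl => triple_of_extremes h₁ h₂ hl, node, mid⟩

end

end Vale.Agent.P098.Reduce
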